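import Mathlib

/-!
Definitions for the continuum pair-potential phase transition statement.
-/

open MeasureTheory
open scoped ENNReal

namespace Vale.Agent.P171

/-- Euclidean three-space. -/
abbrev Space : Type := EuclideanSpace ℝ (Fin 3)

/-- The closed cube `[0,L]^3`. -/
def box (L : ℝ) : Set Space := {x | ∀ i, x i ∈ Set.Icc 0 L}

/-- The pair energy `U_N = sum over i < j of φ(|x_i - x_j|)`. -/
noncomputable def energy (φ : ℝ → ℝ) {N : ℕ} (x : Fin N → Space) : ℝ :=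
  ∑ i, ∑ j ∈ Finset.Ioi i, φ (dist (x i) (x j))

/-- `Z_{L,N}(β)`: `(1/N!)` times the Lebesgue integral over the `N`-th power of the cube. -/
noncomputable def partitionN (φ : ℝ → ℝ) (β L : ℝ) (N : ℕ) : ℝ≥0∞ :=
  (N.factorial : ℝ≥0∞)⁻¹ *
    ∫⁻ x in Set.univ.pi fun _ : Fin N => box L, ENNReal.ofReal (Real.exp (-β * energy φ x))

/-- The grand partition function `∑_N z^N Z_{L,N}(β)`. -/
noncomputable def grandPartition (φ : ℝ → ℝ) (β z L : ℝ) : ℝ≥0∞ :=
  ∑' N : ℕ, ENNReal.ofReal z ^ N * partitionN φ β L N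

/-- Stability: `U_N ≥ -B N` on configurations of distinct points. -/
def Stable (φ : ℝ → ℝ) : Prop :=
  ∃ B : ℝ, ∀ (N : ℕ) (x : Fin N → Space), Function.Injective x → -(B * N) ≤ energy φ x

/-- Temperedness: `φ(r) ≤ C r^(-3-ε)` for large `r`. -/
def Tempered (φ : ℝ → ℝ) : Prop :=
  ∃ C ε R₀ : ℝ, 0 < C ∧ 0 < ε ∧ 0 < R₀ ∧ ∀ r, R₀ ≤ r → φ r ≤ C * r ^ (-(3 + ε) : ℝ)

/-- Local boundedness on `(0,∞)`. -/
def LocallyBoundedPos (φ : ℝ → ℝ) : Prop :=
  ∀ a b : ℝ, 0 < a → ∃ M : ℝ, ∀ r ∈ Set.Icc a b, |φ r| ≤ M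

/-- Type (a): for some `β > 0` the thermodynamic limit `Pi` exists for every `z > 0` (the grand
partition functions being finite) and is not differentiable at some `z > 0`. -/
def HasPressureTransition (φ : ℝ → ℝ) : Prop :=
  ∃ β : ℝ, 0 < β ∧
    (∀ z L : ℝ, 0 < z → grandPartition φ β z L ≠ ∞) ∧
    ∃ P : ℝ → ℝ,
      (∀ z : ℝ, 0 < z →
        Filter.Tendsto (fun L : ℝ => (L ^ 3)⁻¹ * Real.log (grandPartition φ β z L).toReal)
          Filter.atTop (nhds (P z))) ∧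
      ∃ z : ℝ, 0 < z ∧ ¬ DifferentiableAt ℝ P z

end Vale.Agent.P171
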