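import Vale.Agent.P171.Pair

/-!
Grand canonical partition functions of pair functionals, and their factorisation.
-/

open MeasureTheory
open scoped ENNReal

namespace Vale.Agent.P171

/-- Points whose unit cube lies in `S`. -/
def inCells (S : Finset Cell) : Set Space := cellOf ⁻¹' ↑S

/-- Configurations inside `A`. -/
def conf (A : Set Space) (ι : Type*) : Set (ι → Space) := Set.univ.pi fun _ => A

/-- A functional made of a one-body and a two-body term. -/
noncomputable def W {ι : Type*} [Fintype ι] [DecidableEq ι] (a : Space → ℝ)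
    (b : Space → Space → ℝ) (x : ι → Space) : ℝ :=
  ∑ i, a (x i) + ∑ i, ∑ j, (if i = j then 0 else b (x i) (x j))

/-- The `N`-particle integral. -/
noncomputable def integralN (A : Set Space) (a : Space → ℝ) (b : Space → Space → ℝ) (N : ℕ) :
    ℝ≥0∞ :=
  ∫⁻ x in conf A (Fin N), ENNReal.ofReal (Real.exp (W a b x))

/-- The grand canonical sum. -/
noncomputable def G (A : Set Space) (a : Space → ℝ) (b : Space → Space → ℝ) : ℝ≥0∞ :=
  ∑' N : ℕ, (N.factorial : ℝ≥0∞)⁻¹ * integralN A a b N

theorem measurable_cellOf : Measurable cellOf :=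
  measurable_pi_lambda _ fun i => (by fun_prop : Measurable fun x : Space => x i).floor

theorem measurableSet_inCells (S : Finset Cell) : MeasurableSet (inCells S) :=
  measurable_cellOf S.measurableSet

theorem measurable_comp_cellOf (F : Cell → ℝ) : Measurable fun x => F (cellOf x) :=
  (measurable_of_countable F).comp measurable_cellOf

theorem measurable_comp_cellOf₂ (F : Cell → Cell → ℝ) :
    Measurable (Function.uncurry fun x y => F (cellOf x) (cellOf y)) :=
  (measurable_of_countable (fun p : Cell × Cell => F p.1 p.2)).comp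
    ((measurable_cellOf.comp measurable_fst).prodMk (measurable_cellOf.comp measurable_snd))

theorem measurable_W {ι : Type*} [Fintype ι] [DecidableEq ι] {a : Space → ℝ}
    {b : Space → Space → ℝ} (ha : Measurable a) (hb : Measurable (Function.uncurry b)) :
    Measurable fun x : ι → Space => W a b x := by
  refine (Finset.measurable_sum _ fun i _ => ha.comp (measurable_pi_apply i)).add
    (Finset.measurable_sum _ fun i _ => Finset.measurable_sum _ fun j _ => ?_)
  by_cases h : i = j
  · simp only [h, if_true]; exact measurable_const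
  · simp only [h, if_false]
    have hp : Measurable fun x : ι → Space => (x i, x j) :=
      (measurable_pi_apply i).prodMk (measurable_pi_apply j)
    exact hb.comp hp

theorem measurableSet_conf {A : Set Space} (hA : MeasurableSet A) (ι : Type*) [Countable ι] :
    MeasurableSet (conf A ι) :=
  MeasurableSet.pi Set.countable_univ fun _ _ => hA

theorem volume_conf (A : Set Space) (ι : Type*) [Fintype ι] :
    volume (conf A ι) = volume A ^ Fintype.card ι := by
  simp [conf, volume_pi_pi]

theorem W_const {ι : Type*} [Fintype ι] [DecidableEq ι] (θ : ℝ) (x : ι → Space) :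
    W (fun _ => θ) (fun _ _ => 0) x = Fintype.card ι * θ := by
  simp [W]

theorem ae_injective (N : ℕ) : ∀ᵐ x : Fin N → Space, Function.Injective x := by
  have hnull : ∀ i j : Fin N, i ≠ j → volume {x : Fin N → Space | x i 0 = x j 0} = 0 := by
    intro i j hij
    let Lm : (Fin N → Space) →ₗ[ℝ] ℝ :=
      { toFun := fun x => x i 0 - x j 0
        map_add' := fun x y => by simp; ring
        map_smul' := fun c x => by simp; ring }
    have hne : LinearMap.ker Lm ≠ ⊤ := by
      intro h
      have h1 : Pi.single i (EuclideanSpace.single (0 : Fin 3) (1 : ℝ)) ∈ LinearMap.ker Lm := by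
        rw [h]; trivial
      simp [Lm, hij.symm] at h1
    have : {x : Fin N → Space | x i 0 = x j 0} = (LinearMap.ker Lm : Set (Fin N → Space)) := by
      ext x; simp [Lm, sub_eq_zero]
    rw [this]
    exact Measure.addHaar_submodule _ _ hne
  rw [ae_iff]
  refine measure_mono_null (t := ⋃ p : {p : Fin N × Fin N // p.1 ≠ p.2},
    {x : Fin N → Space | x p.1.1 0 = x p.1.2 0}) ?_ (measure_iUnion_null fun p => hnull _ _ p.2)
  intro x hx
  simp only [Set.mem_setOf_eq, Function.Injective, not_forall] at hx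
  obtain ⟨i, j, he, hne⟩ := hx
  exact Set.mem_iUnion.2 ⟨⟨(i, j), hne⟩, by simp [he]⟩

theorem G_mono_set {A B : Set Space} (h : A ⊆ B) (a : Space → ℝ) (b : Space → Space → ℝ) :
    G A a b ≤ G B a b :=
  ENNReal.tsum_le_tsum fun N => mul_le_mul_right
    (lintegral_mono_set (Set.pi_mono fun _ _ => h)) _

theorem G_mono {A : Set Space} (hA : MeasurableSet A) {a a' : Space → ℝ}
    {b b' : Space → Space → ℝ}
    (h : ∀ (N : ℕ) (x : Fin N → Space), Function.Injective x → (∀ i, x i ∈ A) →
      W a b x ≤ W a' b' x) :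
    G A a b ≤ G A a' b' := by
  refine ENNReal.tsum_le_tsum fun N => mul_le_mul_right ?_ _
  refine lintegral_mono_ae ?_
  filter_upwards [ae_restrict_of_ae (ae_injective N),
    ae_restrict_mem (measurableSet_conf hA _)] with x hx hx'
  exact ENNReal.ofReal_le_ofReal (Real.exp_le_exp.2 (h N x hx fun i => hx' i trivial))

theorem G_le_lincomb {A : Set Space} (hA : MeasurableSet A) {κ : Type*} [Fintype κ]
    {a : Space → ℝ} {b : Space → Space → ℝ} (C : κ → ℝ) (a' : κ → Space → ℝ)
    (b' : κ → Space → Space → ℝ) (hC : ∀ k, 0 ≤ C k) (ha : ∀ k, Measurable (a' k))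
    (hb : ∀ k, Measurable (Function.uncurry (b' k)))
    (h : ∀ (N : ℕ) (x : Fin N → Space), Function.Injective x → (∀ i, x i ∈ A) →
      Real.exp (W a b x) ≤ ∑ k, C k * Real.exp (W (a' k) (b' k) x)) :
    G A a b ≤ ∑ k, ENNReal.ofReal (C k) * G A (a' k) (b' k) := by
  simp only [G, ← ENNReal.tsum_mul_left]
  rw [← Summable.tsum_finsetSum (fun k _ => ENNReal.summable)]
  refine ENNReal.tsum_le_tsum fun N => ?_
  simp only [← mul_assoc, mul_comm (ENNReal.ofReal _) ((N.factorial : ℝ≥0∞)⁻¹)]
  simp only [mul_assoc, ← Finset.mul_sum]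
  refine mul_le_mul_right ?_ _
  simp only [integralN, ← lintegral_const_mul' _ _ ENNReal.ofReal_ne_top]
  rw [← lintegral_finsetSum _ fun k _ =>
    ((measurable_W (ha k) (hb k)).exp.ennreal_ofReal).const_mul _]
  refine lintegral_mono_ae ?_
  filter_upwards [ae_restrict_of_ae (ae_injective N),
    ae_restrict_mem (measurableSet_conf hA _)] with x hx hx'
  refine (ENNReal.ofReal_le_ofReal (h N x hx fun i => hx' i trivial)).trans (le_of_eq ?_)
  rw [ENNReal.ofReal_sum_of_nonneg fun k _ => mul_nonneg (hC k) (Real.exp_nonneg _)]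
  simp [ENNReal.ofReal_mul, hC]

/-- The weighted arithmetic-geometric mean form of Hoelder's inequality. -/
theorem G_holder {A : Set Space} (hA : MeasurableSet A) {a a₁ a₂ : Space → ℝ}
    {b b₁ b₂ : Space → Space → ℝ} (ha₁ : Measurable a₁) (ha₂ : Measurable a₂)
    (hb₁ : Measurable (Function.uncurry b₁)) (hb₂ : Measurable (Function.uncurry b₂))
    {u v l₁ l₂ : ℝ} (hu : 0 ≤ u) (hv : 0 ≤ v) (huv : u + v = 1)
    (h₁ : G A a₁ b₁ ≤ ENNReal.ofReal (Real.exp l₁))
    (h₂ : G A a₂ b₂ ≤ ENNReal.ofReal (Real.exp l₂))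
    (h : ∀ (N : ℕ) (x : Fin N → Space), Function.Injective x → (∀ i, x i ∈ A) →
      W a b x ≤ u * W a₁ b₁ x + v * W a₂ b₂ x) :
    G A a b ≤ ENNReal.ofReal (Real.exp (u * l₁ + v * l₂)) := by
  let E := Real.exp (u * l₁ + v * l₂)
  have hle := G_le_lincomb (a := a) (b := b) hA
    ![E * u * Real.exp (-l₁), E * v * Real.exp (-l₂)] ![a₁, a₂] ![b₁, b₂]
    (fun k => by fin_cases k <;> simp [E] <;> positivity)
    (fun k => by fin_cases k <;> simp [ha₁, ha₂])
    (fun k => by fin_cases k <;> simp [hb₁, hb₂]) (fun N x hx hx' => by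
      have hc := convexOn_exp.2 (Set.mem_univ (W a₁ b₁ x - l₁)) (Set.mem_univ (W a₂ b₂ x - l₂))
        hu hv huv
      simp only [smul_eq_mul] at hc
      simp only [Fin.sum_univ_two, Matrix.cons_val_zero, Matrix.cons_val_one]
      calc Real.exp (W a b x) ≤ Real.exp (u * W a₁ b₁ x + v * W a₂ b₂ x) :=
            Real.exp_le_exp.2 (h N x hx hx')
        _ = E * Real.exp (u * (W a₁ b₁ x - l₁) + v * (W a₂ b₂ x - l₂)) := by
            simp only [E, ← Real.exp_add]; ring_nf
        _ ≤ E * (u * Real.exp (W a₁ b₁ x - l₁) + v * Real.exp (W a₂ b₂ x - l₂)) :=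
            mul_le_mul_of_nonneg_left hc (Real.exp_nonneg _)
        _ = _ := by
            simp only [sub_eq_add_neg, Real.exp_add]; ring)
  refine hle.trans ?_
  simp only [Fin.sum_univ_two, Matrix.cons_val_zero, Matrix.cons_val_one]
  calc ENNReal.ofReal (E * u * Real.exp (-l₁)) * G A a₁ b₁
        + ENNReal.ofReal (E * v * Real.exp (-l₂)) * G A a₂ b₂
      ≤ ENNReal.ofReal (E * u * Real.exp (-l₁)) * ENNReal.ofReal (Real.exp l₁)
        + ENNReal.ofReal (E * v * Real.exp (-l₂)) * ENNReal.ofReal (Real.exp l₂) := by gcongr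
    _ = ENNReal.ofReal E := by
        rw [← ENNReal.ofReal_mul (by positivity), ← ENNReal.ofReal_mul (by positivity),
          ← ENNReal.ofReal_add (by positivity) (by positivity)]
        congr 1
        simp only [mul_assoc, ← Real.exp_add, neg_add_cancel, Real.exp_zero, mul_one]
        rw [← mul_add, huv, mul_one]

theorem tsum_exp (y : ℝ) (hy : 0 ≤ y) :
    ∑' N : ℕ, (N.factorial : ℝ≥0∞)⁻¹ * ENNReal.ofReal y ^ N = ENNReal.ofReal (Real.exp y) := by
  have h := NormedSpace.expSeries_div_hasSum_exp (𝔸 := ℝ) y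
  rw [Real.exp_eq_exp_ℝ, ← h.tsum_eq, ENNReal.ofReal_tsum_of_nonneg (fun n => by positivity)
    h.summable]
  refine tsum_congr fun N => ?_
  rw [div_eq_inv_mul, ENNReal.ofReal_mul (by positivity), ENNReal.ofReal_inv_of_pos
    (by positivity), ENNReal.ofReal_natCast, ENNReal.ofReal_pow hy]

theorem G_const {A : Set Space} {v : ℝ} (hv : 0 ≤ v) (hA : volume A = ENNReal.ofReal v) (θ : ℝ) :
    G A (fun _ => θ) (fun _ _ => 0) = ENNReal.ofReal (Real.exp (v * Real.exp θ)) := by
  rw [← tsum_exp _ (mul_nonneg hv (Real.exp_nonneg θ))]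
  refine tsum_congr fun N => ?_
  congr 1
  rw [integralN]
  simp only [W_const, lintegral_const, Measure.restrict_apply_univ, volume_conf, hA,
    Fintype.card_fin]
  rw [Real.exp_nat_mul, ENNReal.ofReal_pow (Real.exp_nonneg θ), ← mul_pow,
    ← ENNReal.ofReal_mul (Real.exp_nonneg θ), mul_comm]

theorem one_le_G (A : Set Space) (a : Space → ℝ) (b : Space → Space → ℝ) : 1 ≤ G A a b := by
  refine le_trans (le_of_eq ?_) (ENNReal.le_tsum 0)
  simp [integralN, W, volume_conf]

theorem W_reindex {ι ι' : Type*} [Fintype ι] [DecidableEq ι] [Fintype ι'] [DecidableEq ι']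
    (e : ι' ≃ ι) (a : Space → ℝ) (b : Space → Space → ℝ) (x : ι → Space) :
    W a b (fun i => x (e i)) = W a b x := by
  unfold W
  rw [← e.sum_comp (fun i => a (x i))]
  congr 1
  rw [← e.sum_comp]
  refine Finset.sum_congr rfl fun i _ => ?_
  rw [← e.sum_comp]
  simp [e.injective.eq_iff]

theorem W_sum_type {ι ι' : Type*} [Fintype ι] [DecidableEq ι] [Fintype ι'] [DecidableEq ι']
    (a : Space → ℝ) (b : Space → Space → ℝ) (x : ι → Space) (y : ι' → Space)
    (h : ∀ i j, b (x i) (y j) = 0 ∧ b (y j) (x i) = 0) :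
    W a b (Sum.elim x y) = W a b x + W a b y := by
  simp [W, Fintype.sum_sum_type, h]
  ring

theorem integralN_union {A B : Set Space} (hA : MeasurableSet A) (hB : MeasurableSet B)
    (hAB : Disjoint A B) {a : Space → ℝ} {b : Space → Space → ℝ} (ha : Measurable a)
    (hb : Measurable (Function.uncurry b))
    (h : ∀ x ∈ A, ∀ y ∈ B, b x y = 0 ∧ b y x = 0) (N : ℕ) :
    integralN (A ∪ B) a b N = ∑ S : Finset (Fin N),
      integralN A a b S.card * integralN B a b (N - S.card) := by
  classical
  let piece : Finset (Fin N) → Set (Fin N → Space) := fun S =>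
    Set.univ.pi fun i => if i ∈ S then A else B
  have hmeas : ∀ S, MeasurableSet (piece S) := fun S =>
    MeasurableSet.pi Set.countable_univ fun i _ => by split_ifs <;> assumption
  have hU : conf (A ∪ B) (Fin N) = ⋃ S ∈ (Finset.univ : Finset (Finset (Fin N))), piece S := by
    ext x
    simp only [conf, piece, Set.mem_univ_pi, Set.mem_iUnion, Finset.mem_univ, exists_const]
    constructor
    · intro hx
      refine ⟨Finset.univ.filter fun i => x i ∈ A, fun i => ?_⟩
      by_cases hi : x i ∈ A
      · simp [hi]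
      · simpa [hi] using (hx i).resolve_left hi
    · rintro ⟨S, hS⟩ i
      have := hS i
      split_ifs at this
      · exact Or.inl this
      · exact Or.inr this
  have hdis : Set.PairwiseDisjoint ↑(Finset.univ : Finset (Finset (Fin N))) piece := by
    intro S _ T _ hST
    refine Set.disjoint_left.2 fun x hx hx' => hST ?_
    ext i
    have h1 := hx i trivial
    have h2 := hx' i trivial
    by_cases hS : i ∈ S <;> by_cases hT : i ∈ T <;> simp only [hS, hT, if_true, if_false] at h1 h2 ⊢
    · exact (Set.disjoint_left.1 hAB h1 h2).elim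
    · exact (Set.disjoint_left.1 hAB h2 h1).elim
  rw [integralN, hU, lintegral_biUnion_finset hdis fun S _ => hmeas S]
  refine Finset.sum_congr rfl fun S _ => ?_
  have hc : Sᶜ.card = N - S.card := by simp [Finset.card_compl]
  let e := finSumEquivOfFinset (s := S) rfl hc
  let ψ : (Fin S.card → Space) × (Fin (N - S.card) → Space) ≃ᵐ (Fin N → Space) :=
    (MeasurableEquiv.sumPiEquivProdPi (fun _ : Fin S.card ⊕ Fin (N - S.card) => Space)).symm.trans
      (MeasurableEquiv.piCongrLeft (fun _ : Fin N => Space) e)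
  have hψ : MeasurePreserving ψ :=
    (volume_measurePreserving_sumPiEquivProdPi_symm _).trans
      (volume_measurePreserving_piCongrLeft (fun _ : Fin N => Space) e)
  have hψe : ∀ p s, ψ p (e s) = Sum.elim p.1 p.2 s := by
    intro p s
    simp only [ψ, MeasurableEquiv.trans_apply]
    rw [MeasurableEquiv.coe_piCongrLeft, Equiv.piCongrLeft_apply_apply]
    cases s <;> rfl
  have hl : ∀ k, e (Sum.inl k) ∈ S := fun k => by
    simp only [e, finSumEquivOfFinset_inl]; exact Finset.orderEmbOfFin_mem _ _ _
  have hr : ∀ k, e (Sum.inr k) ∉ S := fun k => by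
    simp only [e, finSumEquivOfFinset_inr]
    exact Finset.mem_compl.1 (Finset.orderEmbOfFin_mem _ _ _)
  have hpre : ψ ⁻¹' piece S = conf A (Fin S.card) ×ˢ conf B (Fin (N - S.card)) := by
    ext p
    simp only [Set.mem_preimage, piece, conf, Set.mem_prod, Set.mem_univ_pi]
    constructor
    · intro hp
      refine ⟨fun k => ?_, fun k => ?_⟩
      · have := hp (e (Sum.inl k)); rw [hψe, if_pos (hl k)] at this; exact this
      · have := hp (e (Sum.inr k)); rw [hψe, if_neg (hr k)] at this; exact this
    · rintro ⟨hp1, hp2⟩ i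
      obtain ⟨s, rfl⟩ := e.surjective i
      rw [hψe]
      cases s with
      | inl k => rw [if_pos (hl k)]; exact hp1 k
      | inr k => rw [if_neg (hr k)]; exact hp2 k
  rw [← hψ.setLIntegral_comp_preimage_emb ψ.measurableEmbedding, hpre]
  have hW : ∀ p ∈ conf A (Fin S.card) ×ˢ conf B (Fin (N - S.card)),
      ENNReal.ofReal (Real.exp (W a b (ψ p)))
        = ENNReal.ofReal (Real.exp (W a b p.1)) * ENNReal.ofReal (Real.exp (W a b p.2)) := by
    rintro ⟨p1, p2⟩ ⟨hp1, hp2⟩
    rw [← W_reindex e a b (ψ (p1, p2))]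
    simp only [hψe]
    rw [W_sum_type a b p1 p2 fun i j => h _ (hp1 i trivial) _ (hp2 j trivial),
      Real.exp_add, ENNReal.ofReal_mul (Real.exp_nonneg _)]
  rw [setLIntegral_congr_fun ((measurableSet_conf hA _).prod (measurableSet_conf hB _)) hW,
    Measure.volume_eq_prod, ← Measure.prod_restrict]
  refine lintegral_prod_mul (f := fun y => ENNReal.ofReal (Real.exp (W a b y)))
    (g := fun y => ENNReal.ofReal (Real.exp (W a b y))) ?_ ?_
  · exact ((measurable_W ha hb).exp.ennreal_ofReal).aemeasurable
  · exact ((measurable_W ha hb).exp.ennreal_ofReal).aemeasurable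

theorem G_union {A B : Set Space} (hA : MeasurableSet A) (hB : MeasurableSet B)
    (hAB : Disjoint A B) {a : Space → ℝ} {b : Space → Space → ℝ} (ha : Measurable a)
    (hb : Measurable (Function.uncurry b))
    (h : ∀ x ∈ A, ∀ y ∈ B, b x y = 0 ∧ b y x = 0) :
    G (A ∪ B) a b = G A a b * G B a b := by
  let sA : ℕ → ℝ≥0∞ := fun n => (n.factorial : ℝ≥0∞)⁻¹ * integralN A a b n
  let sB : ℕ → ℝ≥0∞ := fun n => (n.factorial : ℝ≥0∞)⁻¹ * integralN B a b n
  have h1 : ∀ N, (N.factorial : ℝ≥0∞)⁻¹ * integralN (A ∪ B) a b N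
      = ∑ p ∈ Finset.HasAntidiagonal.antidiagonal N, sA p.1 * sB p.2 := by
    intro N
    rw [integralN_union hA hB hAB ha hb h, ← Finset.powerset_univ,
      Finset.sum_powerset_apply_card (fun k => integralN A a b k * integralN B a b (N - k)),
      Finset.card_univ, Fintype.card_fin, Finset.mul_sum,
      Finset.Nat.sum_antidiagonal_eq_sum_range_succ_mk]
    refine Finset.sum_congr rfl fun k hk => ?_
    have hkN : k ≤ N := Nat.lt_succ_iff.1 (Finset.mem_range.1 hk)
    have hf : (N.factorial : ℝ≥0∞)⁻¹ * (N.choose k : ℝ≥0∞)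
        = (k.factorial : ℝ≥0∞)⁻¹ * ((N - k).factorial : ℝ≥0∞)⁻¹ := by
      rw [← ENNReal.ofReal_natCast N.factorial, ← ENNReal.ofReal_natCast k.factorial,
        ← ENNReal.ofReal_natCast (N - k).factorial, ← ENNReal.ofReal_natCast (N.choose k),
        ← ENNReal.ofReal_inv_of_pos (by positivity), ← ENNReal.ofReal_inv_of_pos (by positivity),
        ← ENNReal.ofReal_inv_of_pos (by positivity), ← ENNReal.ofReal_mul (by positivity),
        ← ENNReal.ofReal_mul (by positivity)]
      congr 1
      rw [Nat.cast_choose ℝ hkN]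
      field_simp
    rw [nsmul_eq_mul, ← mul_assoc, hf]
    simp only [sA, sB]
    ring
  calc G (A ∪ B) a b = ∑' N, ∑ p ∈ Finset.HasAntidiagonal.antidiagonal N, sA p.1 * sB p.2 := tsum_congr h1
    _ = ∑' (N : ℕ) (p : Finset.HasAntidiagonal.antidiagonal N), sA p.1.1 * sB p.1.2 := by
        refine tsum_congr fun N => ?_
        rw [Finset.tsum_subtype (Finset.HasAntidiagonal.antidiagonal N) (fun p => sA p.1 * sB p.2)]
    _ = ∑' q : Σ N : ℕ, Finset.HasAntidiagonal.antidiagonal N, sA q.2.1.1 * sB q.2.1.2 :=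
        (ENNReal.tsum_sigma' (fun q : Σ N : ℕ, Finset.HasAntidiagonal.antidiagonal N =>
          sA q.2.1.1 * sB q.2.1.2)).symm
    _ = ∑' p : ℕ × ℕ, sA p.1 * sB p.2 :=
        Finset.HasAntidiagonal.sigmaAntidiagonalEquivProd.tsum_eq (fun p : ℕ × ℕ => sA p.1 * sB p.2)
    _ = G A a b * G B a b := by
        rw [ENNReal.tsum_prod']
        simp only [ENNReal.tsum_mul_left, ENNReal.tsum_mul_right]
        rfl

theorem inCells_empty : inCells ∅ = (∅ : Set Space) := by simp [inCells]

theorem G_inCells_biUnion {κ : Type*} [DecidableEq κ] (s : Finset κ) (S : κ → Finset Cell)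
    (hS : Set.PairwiseDisjoint ↑s S) {a : Space → ℝ} {b : Space → Space → ℝ} (ha : Measurable a)
    (hb : Measurable (Function.uncurry b))
    (h : ∀ k ∈ s, ∀ l ∈ s, k ≠ l → ∀ x ∈ inCells (S k), ∀ y ∈ inCells (S l), b x y = 0) :
    G (inCells (s.biUnion S)) a b = ∏ k ∈ s, G (inCells (S k)) a b := by
  induction s using Finset.induction_on with
  | empty =>
    simp only [Finset.biUnion_empty, inCells_empty, Finset.prod_empty]
    refine le_antisymm ?_ (one_le_G _ _ _)
    refine le_of_eq ?_
    rw [G, tsum_eq_single 0]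
    · simp [integralN, W, volume_conf]
    · intro N hN
      have : conf (∅ : Set Space) (Fin N) = ∅ := by
        refine Set.univ_pi_eq_empty (i := ⟨0, Nat.pos_of_ne_zero hN⟩) rfl
      simp [integralN, this]
  | insert k s hk ih =>
    rw [Finset.prod_insert hk, Finset.biUnion_insert]
    have e : inCells (S k ∪ s.biUnion S) = inCells (S k) ∪ inCells (s.biUnion S) := by
      simp [inCells]
    rw [e, G_union (measurableSet_inCells _) (measurableSet_inCells _) ?_ ha hb ?_, ih]
    · exact hS.subset (by simp)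
    · intro p hp q hq
      exact h p (Finset.mem_insert_of_mem hp) q (Finset.mem_insert_of_mem hq)
    · refine Set.disjoint_left.2 fun x hx hx' => ?_
      obtain ⟨l, hl, hl'⟩ := Finset.mem_biUnion.1 (Finset.mem_coe.1 hx')
      have hkl : k ≠ l := fun e => hk (e ▸ hl)
      exact Finset.disjoint_left.1 (hS (by simp) (by simp [hl]) hkl) (Finset.mem_coe.1 hx) hl'
    · intro x hx y hy
      obtain ⟨l, hl, hl'⟩ := Finset.mem_biUnion.1 (Finset.mem_coe.1 hy)
      have hkl : k ≠ l := fun e => hk (e ▸ hl)
      exact ⟨h k (Finset.mem_insert_self _ _) l (Finset.mem_insert_of_mem hl) hkl x hx y hl',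
        h l (Finset.mem_insert_of_mem hl) k (Finset.mem_insert_self _ _) hkl.symm y hl' x hx⟩

theorem inCells_singleton_volume (Q : Cell) : volume (inCells {Q}) = 1 := by
  have e : inCells {Q}
      = (WithLp.ofLp : Space → Fin 3 → ℝ) ⁻¹'
          (Set.univ.pi fun i => Set.Ico (Q i : ℝ) (Q i + 1)) := by
    ext x
    simp [inCells, cellOf, funext_iff, Int.floor_eq_iff]
  rw [e, (PiLp.volume_preserving_ofLp (Fin 3)).measure_preimage
    (MeasurableSet.univ_pi fun i => measurableSet_Ico).nullMeasurableSet, volume_pi_pi]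
  simp [Real.volume_Ico]

/-- A one-body weight constant on unit cubes. -/
theorem G_cells (S : Finset Cell) (θ : Cell → ℝ) :
    G (inCells S) (fun x => θ (cellOf x)) (fun _ _ => 0)
      = ENNReal.ofReal (Real.exp (∑ Q ∈ S, Real.exp (θ Q))) := by
  conv_lhs => rw [← Finset.biUnion_singleton_eq_self (s := S)]
  rw [G_inCells_biUnion S _ (fun p _ q _ hpq => by simpa [Function.onFun] using hpq)
    (measurable_comp_cellOf θ) measurable_const (by simp), Real.exp_sum,
    ENNReal.ofReal_prod_of_nonneg fun _ _ => Real.exp_nonneg _]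
  refine Finset.prod_congr rfl fun Q _ => ?_
  have h1 : G (inCells {Q}) (fun x => θ (cellOf x)) (fun _ _ => 0)
      = G (inCells {Q}) (fun _ => θ Q) (fun _ _ => 0) := by
    refine tsum_congr fun N => ?_
    congr 1
    refine setLIntegral_congr_fun (measurableSet_conf (measurableSet_inCells _) _) fun x hx => ?_
    have : ∀ i, cellOf (x i) = Q := fun i => by simpa [inCells] using hx i trivial
    simp [W, this]
  rw [h1, G_const zero_le_one (by rw [inCells_singleton_volume, ENNReal.ofReal_one]), one_mul]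

/-- Integer translation invariance. -/
theorem G_translate (z : Cell) (n : ℕ) {a : Space → ℝ} {b : Space → Space → ℝ}
    (ha : ∀ x v, a (x + v) = a x) (hb : ∀ x y v, b (x + v) (y + v) = b x y) :
    G (inCells (cube z n)) a b = G (inCells (cube 0 n)) a b := by
  let v : Space := WithLp.toLp 2 fun i => (z i : ℝ)
  refine tsum_congr fun N => ?_
  congr 1
  have h := ((measurePreserving_add_right volume (fun _ : Fin N => v))).setLIntegral_comp_preimage_emb
    (MeasurableEquiv.addRight (fun _ : Fin N => v)).measurableEmbedding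
    (fun x => ENNReal.ofReal (Real.exp (W a b x))) (conf (inCells (cube z n)) (Fin N))
  rw [integralN, integralN, ← h]
  have e : (fun x : Fin N → Space => x + fun _ => v) ⁻¹' conf (inCells (cube z n)) (Fin N)
      = conf (inCells (cube 0 n)) (Fin N) := by
    ext x
    simp only [conf, Set.mem_preimage, Set.mem_univ_pi, inCells, Finset.mem_coe, mem_cube]
    refine forall_congr' fun i => forall_congr' fun k => ?_
    simp only [cellOf, v, Pi.add_apply, PiLp.add_apply, Int.floor_add_intCast, Pi.zero_apply,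
      zero_add]
    omega
  rw [e]
  refine lintegral_congr fun x => ?_
  simp [W, ha, hb]

end Vale.Agent.P171
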