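import Vale.Agent.P171.Pressure

/-!
The block bound: switching on a weak attraction of very long range `2^k` raises the pressure by at
most `const * t * ρ^2`, where `ρ` bounds the right slope of the pressure in the chemical potential.
-/

open MeasureTheory Filter Topology
open scoped ENNReal

namespace Vale.Agent.P171

/-- The depth condition: the unit cube is at distance at least `D` from its block's boundary. -/
def Deep (L D : ℕ) (Q : Cell) : Prop :=
  ∀ i, (D : ℤ) ≤ Q i % (L : ℤ) ∧ Q i % (L : ℤ) + D < (L : ℤ)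

theorem blockOf_eq_of_near {L D : ℕ} (hL : 0 < L) {Q Q' : Cell} (hQ : Deep L D Q)
    (h : ∀ i, |Q i - Q' i| ≤ (D : ℤ)) : blockOf L Q = blockOf L Q' := by
  funext i
  obtain ⟨h1, h2⟩ := hQ i
  obtain ⟨h3, h4⟩ := abs_le.1 (h i)
  have e := Int.emod_add_mul_ediv (Q i) (L : ℤ)
  have hp : (0 : ℤ) < (L : ℤ) := by exact_mod_cast hL
  simp only [blockOf]
  refine le_antisymm ((Int.le_ediv_iff_mul_le hp).2 ?_)
    (Int.lt_add_one_iff.1 ((Int.ediv_lt_iff_lt_mul hp).2 ?_))
  · nlinarith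
  · nlinarith

theorem abs_ediv_sub_le_one {L : ℕ} (hL : 0 < L) {a b : ℤ} (h : |a - b| ≤ (L : ℤ)) :
    |a / (L : ℤ) - b / (L : ℤ)| ≤ 1 := by
  have hp : (0 : ℤ) < (L : ℤ) := by exact_mod_cast hL
  obtain ⟨h1, h2⟩ := abs_le.1 h
  have e1 : a / (L : ℤ) ≤ b / (L : ℤ) + 1 := by
    refine le_trans (Int.ediv_le_ediv hp (by linarith : a ≤ b + (L : ℤ))) (le_of_eq ?_)
    rw [Int.add_ediv_of_dvd_right (dvd_refl _), Int.ediv_self hp.ne']
  have e2 : b / (L : ℤ) ≤ a / (L : ℤ) + 1 := by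
    refine le_trans (Int.ediv_le_ediv hp (by linarith : b ≤ a + (L : ℤ))) (le_of_eq ?_)
    rw [Int.add_ediv_of_dvd_right (dvd_refl _), Int.ediv_self hp.ne']
  exact abs_le.2 ⟨by linarith, by linarith⟩

/-- The attraction between different blocks, at the level of unit cubes. -/
noncomputable def crossF (c : ℕ → ℝ) (L : ℕ) (Q Q' : Cell) : ℝ :=
  if blockOf L Q = blockOf L Q' then 0 else ∑' k, c k * wd k Q Q'

open Classical in
/-- A bound for the cross-block attraction felt by a unit cube. -/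
noncomputable def crossT (c : ℕ → ℝ) (L K₀ : ℕ) (Q : Cell) : ℝ :=
  if Deep L (2 ^ K₀) Q then 27 * ((∑' k, c k) - ∑ k ∈ Finset.range K₀, c k)
  else 27 * ∑' k, c k

theorem sum_crossF_le {c : ℕ → ℝ} (hc : Nn c) {L : ℕ} (hL : 0 < L) (K₀ : ℕ) (Q : Cell)
    (s : Finset Cell) : ∑ Q' ∈ s, crossF c L Q Q' ≤ crossT c L K₀ Q := by
  classical
  have hrow : ∀ k, ∑ Q' ∈ s, (if blockOf L Q = blockOf L Q' then 0 else c k * wd k Q Q')
      ≤ 27 * c k - (if Deep L (2 ^ K₀) Q ∧ k < K₀ then 27 * c k else 0) := by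
    intro k
    split_ifs with h
    · rw [sub_self]
      refine le_of_eq (Finset.sum_eq_zero fun Q' _ => ?_)
      split_ifs with hb
      · rfl
      rw [wd, if_neg, mul_zero]
      intro hnear
      refine hb (blockOf_eq_of_near hL h.1 fun i => (hnear i).trans ?_)
      push_cast
      exact pow_le_pow_right₀ (by norm_num) h.2.le
    · rw [sub_zero]
      calc ∑ Q' ∈ s, (if blockOf L Q = blockOf L Q' then 0 else c k * wd k Q Q')
          ≤ ∑ Q' ∈ s, c k * wd k Q Q' := Finset.sum_le_sum fun Q' _ => by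
            split_ifs
            · exact mul_nonneg (hc.1 k) (wd_nonneg k _ _)
            · exact le_rfl
        _ = c k * ∑ Q' ∈ s, wd k Q Q' := by rw [Finset.mul_sum]
        _ ≤ c k * 27 := mul_le_mul_of_nonneg_left (sum_wd_le k Q s) (hc.1 k)
        _ = 27 * c k := mul_comm _ _
  have hsum1 : ∀ Q', Summable fun k =>
      (if blockOf L Q = blockOf L Q' then 0 else c k * wd k Q Q') := by
    intro Q'
    split_ifs
    · exact summable_zero
    · exact summable_wd hc.2 _ _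
  have hlhs : ∑ Q' ∈ s, crossF c L Q Q'
      = ∑' k, ∑ Q' ∈ s, (if blockOf L Q = blockOf L Q' then 0 else c k * wd k Q Q') := by
    rw [Summable.tsum_finsetSum fun Q' _ => hsum1 Q']
    refine Finset.sum_congr rfl fun Q' _ => ?_
    unfold crossF
    split_ifs <;> simp
  have hsub : HasSum (fun k => if Deep L (2 ^ K₀) Q ∧ k < K₀ then 27 * c k else 0)
      (∑ k ∈ Finset.range K₀, if Deep L (2 ^ K₀) Q ∧ k < K₀ then 27 * c k else 0) :=
    hasSum_sum_of_ne_finset_zero fun k hk => if_neg fun h => hk (Finset.mem_range.2 h.2)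
  have hR := (hc.2.hasSum.mul_left 27).sub hsub
  rw [hlhs]
  refine le_trans ((summable_sum fun Q' _ => hsum1 Q').tsum_le_tsum hrow hR.summable) ?_
  rw [hR.tsum_eq, crossT]
  split_ifs with hd
  · refine le_of_eq ?_
    rw [mul_sub, Finset.mul_sum]
    congr 1
    exact Finset.sum_congr rfl fun k hk => if_pos ⟨hd, Finset.mem_range.1 hk⟩
  · simp [hd]

theorem fC_dist_le_crossF {c : ℕ → ℝ} (hc : Nn c) {L : ℕ} {x y : Space}
    (h : blockOf L (cellOf x) ≠ blockOf L (cellOf y)) :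
    fC c (dist x y) ≤ crossF c L (cellOf x) (cellOf y) := by
  rw [crossF, if_neg h]
  exact (summable_wK hc.2 _).tsum_le_tsum
    (fun k => mul_le_mul_of_nonneg_left (wK_le_wd k _ _) (hc.1 k)) (summable_wd hc.2 _ _)

/-- The same-block functional. -/
noncomputable def bX (c : ℕ → ℝ) (κ : ℝ) (L : ℕ) (x y : Space) : ℝ :=
  if blockOf L (cellOf x) = blockOf L (cellOf y) then bphi c x y + κ else 0

theorem measurable_bX {c : ℕ → ℝ} (hc : Nn c) (κ : ℝ) (L : ℕ) :
    Measurable (Function.uncurry (bX c κ L)) := by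
  refine Measurable.ite ?_ ((measurable_bphi hc).add_const κ) measurable_const
  have hg : Measurable fun x => blockOf L (cellOf x) :=
    (measurable_of_countable (blockOf L)).comp measurable_cellOf
  exact measurableSet_eq_fun (hg.comp measurable_fst) (hg.comp measurable_snd)

/-- The pointwise decomposition into a same-block part and a one-body part. -/
theorem decompose {ι : Type*} [Fintype ι] [DecidableEq ι] (μ : ℝ) {c : ℕ → ℝ} (hc : Nn c)
    {δ t : ℝ} (hδ0 : 0 < δ) (hδ : δ < 1) (ht : 0 ≤ t) (k K₀ : ℕ) (q : Cell → ℕ)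
    (hq : ∀ Q, 1 ≤ q Q) (hqT : ∀ Q, 9 * crossT c (2 ^ k) K₀ Q ≤ δ * q Q) (x : ι → Space)
    (hx : Function.Injective x) :
    W (fun _ => μ) (bphi fun j => c j + if j = k then t else 0) x
      ≤ (1 - δ) * W (fun _ => μ + 14 * t / (1 - δ) / ((2 : ℝ) ^ k) ^ 3)
          (bX (fun j => (1 - δ)⁻¹ * c j) (14 * t / (1 - δ) / ((2 : ℝ) ^ k) ^ 3) (2 ^ k)) x
        + δ * W (fun y => μ + (q (cellOf y) : ℝ) ^ 4 / 18) (fun _ _ => 0) x := by
  classical
  set L := 2 ^ k with hLdef
  have hL : 0 < L := by positivity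
  set V : ℝ := ((2 : ℝ) ^ k) ^ 3 with hVdef
  have hV : 0 < V := by positivity
  set κ : ℝ := 14 * t / (1 - δ) / V with hκdef
  have hsd : Summable fun j => (if j = k then t else 0 : ℝ) := (hasSum_ite_eq k t).summable
  have hd : (1 - δ) ≠ 0 := by linarith
  let g : ι → Cell := fun i => blockOf L (cellOf (x i))
  let d : ι → ι → ℝ := fun i j => dist (x i) (x j)
  -- the attraction of range `2^k`
  have hk : ∑ i, ∑ j, (if i = j then 0 else t * wK k (d i j)) ≤ 27 * t / V * ∑ i, mult g i := by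
    have h := pair_sum_le g (fun a b => if ∀ l, |a l - b l| ≤ (1 : ℤ) then t / V else 0)
      (fun _ => 27 * t / V)
      (fun a b => by simp only [abs_sub_comm]) (fun a b => by split_ifs <;> positivity)
      (fun i s => by
        rw [← Finset.sum_filter, Finset.sum_const, nsmul_eq_mul]
        have h1 := card_near_le (g i) 1 s
        have h2 : ((s.filter fun b => ∀ l, |g i l - b l| ≤ (1 : ℤ)).card : ℝ) ≤ 27 := by
          norm_num at h1
          exact_mod_cast h1
        rw [mul_div_assoc]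
        exact mul_le_mul_of_nonneg_right h2 (by positivity))
    rw [← Finset.sum_mul, mul_comm _ (27 * t / V)] at h
    refine le_trans (Finset.sum_le_sum fun i _ => Finset.sum_le_sum fun j _ => ?_) h
    by_cases hij : i = j
    · simp only [hij, if_true]; split_ifs <;> positivity
    rw [if_neg hij]
    by_cases hw : d i j ≤ 2 ^ k
    · have hblock : ∀ l, |g i l - g j l| ≤ (1 : ℤ) := by
        intro l
        refine abs_ediv_sub_le_one hL (floor_close ?_)
        rw [hLdef]; push_cast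
        exact (abs_coord_sub_le_dist _ _ l).trans hw
      rw [wK, if_pos hw, if_pos hblock, hVdef, div_eq_mul_inv]
    · rw [wK, if_neg hw, mul_zero]; split_ifs <;> positivity
  -- the cross-block attraction
  have hcross : ∑ i, ∑ j, (if g i = g j then 0 else fC c (d i j))
      ≤ ∑ i, mult (fun j => cellOf (x j)) i * crossT c L K₀ (cellOf (x i)) := by
    have h := pair_sum_le (fun i => cellOf (x i)) (crossF c L) (crossT c L K₀)
      (fun a b => by
        unfold crossF
        simp only [eq_comm (a := blockOf L a), wd_comm])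
      (fun a b => by
        unfold crossF
        split_ifs
        · exact le_rfl
        · exact tsum_nonneg fun j => mul_nonneg (hc.1 j) (wd_nonneg _ _ _))
      (fun i s => sum_crossF_le hc hL K₀ _ s)
    refine le_trans (Finset.sum_le_sum fun i _ => Finset.sum_le_sum fun j _ => ?_) h
    split_ifs with hb
    · simp [crossF, g] at hb ⊢; simp [hb]
    · exact fC_dist_le_crossF hc hb
  have hss := superstable x hx q hq
  have hY : -(δ / 2) * ∑ i, ∑ j, (if i = j then 0 else phi0 (d i j))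
      + (∑ i, ∑ j, (if g i = g j then 0 else fC c (d i j))) / 2
      ≤ δ * ∑ i, (q (cellOf (x i)) : ℝ) ^ 4 / 18 := by
    have h1 : ∑ i, mult (fun j => cellOf (x j)) i * crossT c L K₀ (cellOf (x i))
        ≤ δ * ∑ i, (q (cellOf (x i)) : ℝ) / 9 * mult (fun j => cellOf (x j)) i := by
      rw [Finset.mul_sum]
      refine Finset.sum_le_sum fun i _ => ?_
      have := mul_le_mul_of_nonneg_left (hqT (cellOf (x i)))
        (mult_nonneg (fun j => cellOf (x j)) i)
      nlinarith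
    rw [Finset.sum_sub_distrib] at hss
    have h2 := mul_le_mul_of_nonneg_left hss hδ0.le
    have e : ∑ i, (q (cellOf (x i)) : ℝ) ^ 4 / 18
        = (∑ i, (q (cellOf (x i)) : ℝ) ^ 4 / 9) / 2 := by
      rw [Finset.sum_div]; exact Finset.sum_congr rfl fun i _ => by ring
    rw [e]
    nlinarith
  -- the same-block part
  have hm : ∑ i, mult g i = ∑ i, ∑ j, (if g i = g j then (1 : ℝ) else 0) :=
    Finset.sum_congr rfl fun i _ => Finset.sum_congr rfl fun j _ => by simp [eq_comm]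
  have hf : ∀ r, fC (fun j => c j + if j = k then t else 0) r = fC c r + t * wK k r := by
    intro r; rw [fC_add hc.2 hsd, fC_single]
  have key : ∀ i j, (if i = j then 0 else bphi (fun j => c j + if j = k then t else 0) (x i) (x j))
      + (if i = j then (1 - δ) * κ else 0)
      ≤ (1 - δ) * ((if i = j then 0 else bX (fun j => (1 - δ)⁻¹ * c j) κ L (x i) (x j))
          + (if i = j then κ else 0))
        - δ / 2 * (if i = j then 0 else phi0 (d i j))
        + (if g i = g j then 0 else fC c (d i j)) / 2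
        + (if i = j then 0 else t * wK k (d i j)) / 2
        - (1 - δ) * κ * (if g i = g j then (1 : ℝ) else 0) + (if i = j then (1 - δ) * κ else 0) := by
    intro i j
    by_cases hij : i = j
    · subst hij; simp
    simp only [if_neg hij]
    by_cases hb : g i = g j
    · simp only [if_pos hb, bX, g] at hb ⊢
      rw [bphi, bphi, phiC, phiC, hf, fC_smul]
      refine le_of_eq ?_
      simp only [d]
      field_simp
      ring
    · simp only [if_neg hb, bX, g] at hb ⊢
      rw [bphi, phiC, hf]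
      simp only [d, mul_zero, add_zero, zero_add, sub_zero]
      have := phi0_nonneg (dist (x i) (x j))
      nlinarith
  have hsum := Finset.sum_le_sum fun i (_ : i ∈ Finset.univ) =>
    Finset.sum_le_sum fun j (_ : j ∈ Finset.univ) => key i j
  simp only [Finset.sum_add_distrib, Finset.sum_sub_distrib, ← Finset.mul_sum,
    ← Finset.sum_div, Finset.sum_ite_eq, Finset.mem_univ, if_true, Finset.sum_const,
    Finset.card_univ, nsmul_eq_mul] at hsum
  simp only [W, mul_add, Finset.sum_const, Finset.card_univ, nsmul_eq_mul, Finset.sum_add_distrib,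
    ite_self, Finset.sum_const_zero, mul_zero, add_zero]
  rw [← hm] at hsum
  have hκm : 27 * t / V / 2 * ∑ i, mult g i ≤ (1 - δ) * κ * ∑ i, mult g i := by
    refine mul_le_mul_of_nonneg_right ?_ (Finset.sum_nonneg fun i _ => mult_nonneg g i)
    rw [hκdef]
    field_simp
    nlinarith
  nlinarith

theorem crossT_nonneg {c : ℕ → ℝ} (hc : Nn c) (L K₀ : ℕ) (Q : Cell) : 0 ≤ crossT c L K₀ Q := by
  unfold crossT
  split_ifs
  · have := hc.2.sum_le_tsum (Finset.range K₀) (fun j _ => hc.1 j)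
    linarith
  · have : 0 ≤ ∑' j, c j := tsum_nonneg hc.1
    linarith

/-- One block: the mean-field term `κ N^2/V` costs at most what the three particle-number regimes
allow. -/
theorem block_bound (μ : ℝ) {c' : ℕ → ℝ} (hc : Nn c') {L : ℕ} (hL : 1 ≤ L) {κ a h A θ : ℝ}
    {q : ℕ} (hq : 1 ≤ q) (hθ : θ = μ + (q : ℝ) ^ 4 / 18)
    (hqc : 27 * (∑' j, c' j) / 2 + 2 ≤ (q : ℝ) / 18) (hκ0 : 0 ≤ κ) (hκ1 : κ ≤ 1)
    (ha : 0 ≤ a) (hh : 0 ≤ h) (hA1 : 1 ≤ A) (hAθ : θ + 1 ≤ A) {M : ℝ}
    (h1 : κ * a ^ 2 * (L : ℝ) ^ 3 + gC μ c' L ≤ M)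
    (h2 : (κ * A ^ 2 - h * a) * (L : ℝ) ^ 3 + gC (μ + h) c' L ≤ M) (h3 : 0 ≤ M) :
    G (inCells (cube 0 L)) (fun _ => μ + κ / (L : ℝ) ^ 3)
        (fun x y => bphi c' x y + κ / (L : ℝ) ^ 3)
      ≤ ENNReal.ofReal (Real.exp (Real.log 3 + M)) := by
  have hV : (0 : ℝ) < (L : ℝ) ^ 3 := by
    have : (1 : ℝ) ≤ L := by exact_mod_cast hL
    positivity
  set V : ℝ := (L : ℝ) ^ 3 with hVdef
  have hle := G_le_lincomb (a := fun _ => μ + κ / V) (b := fun x y => bphi c' x y + κ / V)
    (measurableSet_inCells (cube 0 L))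
    ![Real.exp (κ * a ^ 2 * V), Real.exp ((κ * A ^ 2 - h * a) * V), Real.exp (-V)]
    ![fun _ => μ, fun _ => μ + h, fun _ => (0 : ℝ)] ![bphi c', bphi c', fun _ _ => 0]
    (fun i => by fin_cases i <;> simp [Real.exp_nonneg])
    (fun i => by fin_cases i <;> simp)
    (fun i => by fin_cases i <;> simp [measurable_bphi hc] <;> exact measurable_const)
    (fun N x hx hxA => by
      simp only [Fin.sum_univ_three, Matrix.cons_val_zero, Matrix.cons_val_one,
        Matrix.cons_val_two, Matrix.head_cons, Matrix.tail_cons, ← Real.exp_add]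
      have hW : W (fun _ => μ + κ / V) (fun x y => bphi c' x y + κ / V) x
          = W (fun _ => μ) (bphi c') x + κ / V * ((N : ℝ) * N) := by
        have e : ∀ i j : Fin N, (if i = j then 0 else bphi c' (x i) (x j) + κ / V)
            = (if i = j then 0 else bphi c' (x i) (x j)) + κ / V - (if i = j then κ / V else 0) := by
          intro i j; split_ifs <;> ring
        simp only [W, e, Finset.sum_add_distrib, Finset.sum_sub_distrib, Finset.sum_ite_eq,
          Finset.mem_univ, if_true, Finset.sum_const, Finset.card_univ, Fintype.card_fin,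
          nsmul_eq_mul]
        ring
      have hWh : W (fun _ => μ + h) (bphi c') x = W (fun _ => μ) (bphi c') x + N * h := by
        simp only [W_bphi, Fintype.card_fin]; ring
      rw [hW, hWh, W_const, Fintype.card_fin, mul_zero, add_zero]
      rcases le_or_gt (N : ℝ) (a * V) with hN | hN
      · refine le_add_of_le_of_nonneg (le_add_of_le_of_nonneg (Real.exp_le_exp.2 ?_)
          (Real.exp_nonneg _)) (Real.exp_nonneg _)
        have : κ / V * ((N : ℝ) * N) ≤ κ / V * ((a * V) * (a * V)) := by gcongr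
        have e : κ / V * ((a * V) * (a * V)) = κ * a ^ 2 * V := by field_simp
        linarith
      rcases le_or_gt (N : ℝ) (A * V) with hN' | hN'
      · refine le_add_of_le_of_nonneg (le_add_of_nonneg_of_le (Real.exp_nonneg _)
          (Real.exp_le_exp.2 ?_)) (Real.exp_nonneg _)
        have : κ / V * ((N : ℝ) * N) ≤ κ / V * ((A * V) * (A * V)) := by gcongr
        have e : κ / V * ((A * V) * (A * V)) = κ * A ^ 2 * V := by field_simp
        have := mul_le_mul_of_nonneg_left hN.le hh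
        nlinarith
      · refine le_add_of_nonneg_of_le (add_nonneg (Real.exp_nonneg _) (Real.exp_nonneg _))
          (Real.exp_le_exp.2 ?_)
        have h4 := W_bphi_le μ hc hq x hx
        rw [Fintype.card_fin, ← hθ] at h4
        have h5 := sq_card_le (fun j => cellOf (x j)) 0 L (fun i => Finset.mem_coe.1 (hxA i))
        rw [Fintype.card_fin] at h5
        have h6 : (N : ℝ) * N / V ≤ ∑ i, mult (fun j => cellOf (x j)) i := by
          rw [div_le_iff₀ hV, hVdef]; nlinarith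
        have h0 : 0 ≤ (N : ℝ) * N / V := by positivity
        have h7 : κ / V * ((N : ℝ) * N) ≤ (N : ℝ) * N / V := by
          rw [div_mul_eq_mul_div, mul_div_assoc]; exact mul_le_of_le_one_left h0 hκ1
        have h8 : A * (N : ℝ) ≤ (N : ℝ) * N / V := by
          rw [le_div_iff₀ hV]
          have := mul_le_mul_of_nonneg_right hN'.le (Nat.cast_nonneg N)
          linarith
        have hS : 0 ≤ ∑ i, mult (fun j => cellOf (x j)) i :=
          Finset.sum_nonneg fun i _ => mult_nonneg _ i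
        have h9 := mul_le_mul_of_nonneg_right
          (by linarith : 27 * (∑' j, c' j) / 2 - (q : ℝ) / 18 ≤ -2) hS
        have hN0 : (0 : ℝ) ≤ N := N.cast_nonneg
        nlinarith [mul_le_mul_of_nonneg_right hA1 hV.le])
  refine hle.trans ?_
  have e3 : G (inCells (cube 0 L)) (fun _ => (0 : ℝ)) (fun _ _ => 0)
      = ENNReal.ofReal (Real.exp V) := by
    rw [G_cells (cube 0 L) (fun _ => (0 : ℝ))]
    simp [card_cube, hVdef]
  simp only [Fin.sum_univ_three, Matrix.cons_val_zero, Matrix.cons_val_one,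
    Matrix.cons_val_two, Matrix.head_cons, Matrix.tail_cons, e3]
  change _ + ENNReal.ofReal _ * Gc (μ + h) c' L + _ ≤ _
  rw [show G (inCells (cube 0 L)) (fun _ => μ) (bphi c') = Gc μ c' L from rfl,
    Gc_eq_exp μ hc, Gc_eq_exp (μ + h) hc, ← ENNReal.ofReal_mul (Real.exp_nonneg _),
    ← ENNReal.ofReal_mul (Real.exp_nonneg _), ← ENNReal.ofReal_mul (Real.exp_nonneg _),
    ← ENNReal.ofReal_add (by positivity) (by positivity),
    ← ENNReal.ofReal_add (by positivity) (by positivity), Real.exp_add, Real.exp_log (by norm_num)]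
  refine ENNReal.ofReal_le_ofReal ?_
  rw [← Real.exp_add, ← Real.exp_add, ← Real.exp_add, neg_add_cancel]
  linarith [Real.exp_le_exp.2 h1, Real.exp_le_exp.2 h2, Real.exp_le_exp.2 h3]

open Classical in
/-- The mesh used for the one-body part: fine only in the boundary layer of the blocks. -/
noncomputable def mesh (L D q : ℕ) (Q : Cell) : ℕ := if Deep L D Q then 1 else q

theorem sum_mesh_le (μ : ℝ) {L D q : ℕ} (hL : 0 < L) (hD : 2 * D < L) (b : Cell) :
    ∑ Q ∈ cube (fun i => (L : ℤ) * b i) L, Real.exp (μ + (mesh L D q Q : ℝ) ^ 4 / 18)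
      ≤ (L : ℝ) ^ 3 * Real.exp (μ + 1 / 18)
        + ((L : ℝ) ^ 3 - ((L : ℝ) - 2 * D) ^ 3) * Real.exp (μ + (q : ℝ) ^ 4 / 18) := by
  classical
  let S := cube (fun i => (L : ℤ) * b i) L
  let I := cube (fun i => (L : ℤ) * b i + D) (L - 2 * D)
  have hI : I ⊆ S := fun Q hQ => mem_cube.2 fun i => by
    obtain ⟨a1, a2⟩ := mem_cube.1 hQ i
    constructor <;> omega
  calc ∑ Q ∈ S, Real.exp (μ + (mesh L D q Q : ℝ) ^ 4 / 18)
      ≤ ∑ Q ∈ S, (Real.exp (μ + 1 / 18)
          + if Q ∈ I then 0 else Real.exp (μ + (q : ℝ) ^ 4 / 18)) := by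
        refine Finset.sum_le_sum fun Q hQ => ?_
        by_cases hQI : Q ∈ I
        · have hd : Deep L D Q := fun i => by
            obtain ⟨a1, a2⟩ := mem_cube.1 hQI i
            obtain ⟨b1, b2⟩ := mem_cube.1 hQ i
            have e : Q i % (L : ℤ) = Q i - (L : ℤ) * b i := by
              have hq' : Q i = (Q i - (L : ℤ) * b i) + (L : ℤ) * b i := by ring
              conv_lhs => rw [hq']
              rw [Int.add_mul_emod_self_left, Int.emod_eq_of_lt (by linarith) (by linarith)]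
            rw [e]
            constructor <;> omega
          simp [mesh, hd, hQI]
        · rw [if_neg hQI]
          unfold mesh
          split_ifs
          · simp [Real.exp_nonneg]
          · linarith [Real.exp_nonneg (μ + 1 / 18)]
    _ = (S.card : ℝ) * Real.exp (μ + 1 / 18)
          + ((S \ I).card : ℝ) * Real.exp (μ + (q : ℝ) ^ 4 / 18) := by
        rw [Finset.sum_add_distrib, Finset.sum_const, nsmul_eq_mul, Finset.sum_ite,
          Finset.sum_const_zero, zero_add, Finset.sum_const, nsmul_eq_mul,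
          Finset.filter_notMem_eq_sdiff]
    _ = _ := by
        rw [Finset.cast_card_sdiff hI, show S.card = L ^ 3 from card_cube _ _,
          show I.card = (L - 2 * D) ^ 3 from card_cube _ _]
        push_cast [hD.le]
        ring

theorem biUnion_blocks (m L : ℕ) (hL : 0 < L) :
    (cube (0 : Cell) m).biUnion (fun b => cube (fun i => (L : ℤ) * b i) L)
      = cube 0 (m * L) := by
  have hp : (0 : ℤ) < (L : ℤ) := by exact_mod_cast hL
  ext Q
  simp only [Finset.mem_biUnion, mem_cube, Pi.zero_apply, zero_add]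
  constructor
  · rintro ⟨b, hb, hQ⟩ i
    obtain ⟨a1, a2⟩ := hb i
    obtain ⟨a3, a4⟩ := hQ i
    push_cast
    constructor <;> nlinarith
  · intro hQ
    refine ⟨blockOf L Q, fun i => ?_, fun i => ?_⟩
    · obtain ⟨a1, a2⟩ := hQ i
      push_cast at a2
      exact ⟨Int.ediv_nonneg a1 hp.le, (Int.ediv_lt_iff_lt_mul hp).2 a2⟩
    · have e := Int.emod_add_mul_ediv (Q i) (L : ℤ)
      have h1 := Int.emod_nonneg (Q i) hp.ne'
      have h2 := Int.emod_lt_of_pos (Q i) hp
      simp only [blockOf]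
      constructor <;> linarith

theorem blockOf_mem {L : ℕ} (hL : 0 < L) {b Q : Cell}
    (h : Q ∈ cube (fun i => (L : ℤ) * b i) L) : blockOf L Q = b := by
  funext i
  obtain ⟨h1, h2⟩ := mem_cube.1 h i
  have hp : (0 : ℤ) < (L : ℤ) := by exact_mod_cast hL
  simp only [blockOf]
  refine le_antisymm (Int.lt_add_one_iff.1 ((Int.ediv_lt_iff_lt_mul hp).2 ?_))
    ((Int.le_ediv_iff_mul_le hp).2 ?_)
  · nlinarith
  · nlinarith

/-- The bound for a fixed block side `2^k`. -/
theorem press_step (μ : ℝ) {c : ℕ → ℝ} (hc : Nn c) {δ t : ℝ} (hδ0 : 0 < δ) (hδ : δ < 1)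
    (ht : 0 ≤ t) (k K₀ q₂ : ℕ) (hk : 2 * 2 ^ K₀ < 2 ^ k) (hq2 : 1 ≤ q₂)
    (htail : 9 * (27 * ((∑' j, c j) - ∑ j ∈ Finset.range K₀, c j)) ≤ δ)
    (hq2c : 9 * (27 * ∑' j, c j) ≤ δ * q₂) {l : ℝ}
    (hl : G (inCells (cube 0 (2 ^ k)))
        (fun _ => μ + 14 * t / (1 - δ) / ((2 ^ k : ℕ) : ℝ) ^ 3)
        (fun x y => bphi (fun j => (1 - δ)⁻¹ * c j) x y
          + 14 * t / (1 - δ) / ((2 ^ k : ℕ) : ℝ) ^ 3)
      ≤ ENNReal.ofReal (Real.exp l)) :
    press μ (fun j => c j + if j = k then t else 0)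
      ≤ (1 - δ) * (l / ((2 : ℝ) ^ k) ^ 3)
        + δ * (Real.exp (μ + 1 / 18)
          + (1 - (1 - 2 * (2 : ℝ) ^ K₀ / (2 : ℝ) ^ k) ^ 3) * Real.exp (μ + (q₂ : ℝ) ^ 4 / 18)) := by
  classical
  set L := 2 ^ k with hLdef
  have hL : 0 < L := by positivity
  have hLr : (L : ℝ) = (2 : ℝ) ^ k := by rw [hLdef]; push_cast; rfl
  have hV : (0 : ℝ) < ((2 : ℝ) ^ k) ^ 3 := by positivity
  let d : ℕ → ℝ := fun j => c j + if j = k then t else 0
  have hd : Nn d := ⟨fun j => add_nonneg (hc.1 j) (by split_ifs <;> simp [ht]),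
    hc.2.add (hasSum_ite_eq k t).summable⟩
  let c' : ℕ → ℝ := fun j => (1 - δ)⁻¹ * c j
  have hc' : Nn c' :=
    ⟨fun j => mul_nonneg (inv_nonneg.2 (by linarith)) (hc.1 j), hc.2.mul_left _⟩
  let Q2 : Cell → ℕ := mesh L (2 ^ K₀) q₂
  have hQ1 : ∀ Q, 1 ≤ Q2 Q := fun Q => by simp only [Q2, mesh]; split_ifs <;> omega
  have hQT : ∀ Q, 9 * crossT c L K₀ Q ≤ δ * Q2 Q := by
    intro Q
    simp only [Q2, mesh, crossT]
    split_ifs
    · simpa using htail
    · exact hq2c
  refine press_le_of_forall_mul μ hd hL fun m => ?_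
  set κ := 14 * t / (1 - δ) / ((2 : ℝ) ^ k) ^ 3 with hκdef
  set E1 := Real.exp (μ + 1 / 18)
  set E2 := Real.exp (μ + (q₂ : ℝ) ^ 4 / 18)
  set lY := (L : ℝ) ^ 3 * E1 + ((L : ℝ) ^ 3 - ((L : ℝ) - 2 * (2 : ℝ) ^ K₀) ^ 3) * E2 with hlY
  have hdis : Set.PairwiseDisjoint (↑(cube (0 : Cell) m) : Set Cell) fun b : Cell => cube (fun i => (L : ℤ) * b i) L :=
    fun p _ q _ hpq => Finset.disjoint_left.2 fun Q hp hq =>
      hpq ((blockOf_mem hL hp).symm.trans (blockOf_mem hL hq))
  have hX : G (inCells (cube 0 (m * L))) (fun _ => μ + κ) (bX c' κ L)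
      ≤ ENNReal.ofReal (Real.exp ((m : ℝ) ^ 3 * l)) := by
    rw [← biUnion_blocks m L hL, G_inCells_biUnion _ _ hdis measurable_const (measurable_bX hc' κ L)
      (fun p _ q _ hpq x hx y hy => by
        simp only [bX, blockOf_mem hL (Finset.mem_coe.1 hx), blockOf_mem hL (Finset.mem_coe.1 hy),
          if_neg hpq])]
    refine le_trans (Finset.prod_le_prod' (g := fun _ => ENNReal.ofReal (Real.exp l))
      fun b _ => ?_) (le_of_eq ?_)
    · refine le_trans (le_of_eq ?_) hl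
      rw [hLr, ← hκdef, ← G_translate (fun i => (L : ℤ) * b i) L (fun _ _ => rfl)
        (fun x y v => by rw [bphi_add])]
      refine tsum_congr fun N => ?_
      congr 1
      refine setLIntegral_congr_fun (measurableSet_conf (measurableSet_inCells _) _) fun x hx => ?_
      have h : ∀ i, blockOf L (cellOf (x i)) = b := fun i =>
        blockOf_mem hL (Finset.mem_coe.1 (hx i trivial))
      simp [W, bX, h, c']
    · rw [Finset.prod_const, card_cube, ← ENNReal.ofReal_pow (Real.exp_nonneg _),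
        ← Real.exp_nat_mul]
      push_cast
      rfl
  have hY : G (inCells (cube 0 (m * L))) (fun x => μ + (Q2 (cellOf x) : ℝ) ^ 4 / 18)
      (fun _ _ => 0) ≤ ENNReal.ofReal (Real.exp ((m : ℝ) ^ 3 * lY)) := by
    rw [G_cells (cube 0 (m * L)) (fun Q => μ + (Q2 Q : ℝ) ^ 4 / 18)]
    refine ENNReal.ofReal_le_ofReal (Real.exp_le_exp.2 ?_)
    rw [← biUnion_blocks m L hL, Finset.sum_biUnion hdis]
    refine le_trans (Finset.sum_le_card_nsmul _ _ lY fun b _ => ?_) (le_of_eq ?_)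
    · have h := sum_mesh_le μ (q := q₂) hL (D := 2 ^ K₀) hk b
      push_cast at h
      exact h
    · rw [card_cube, nsmul_eq_mul]; push_cast; rfl
  have h := G_holder (a := fun _ => μ) (b := bphi d) (measurableSet_inCells (cube 0 (m * L)))
    (a₁ := fun _ => μ + κ) (b₁ := bX c' κ L)
    (a₂ := fun x => μ + (Q2 (cellOf x) : ℝ) ^ 4 / 18) (b₂ := fun _ _ => 0)
    measurable_const (measurable_comp_cellOf fun Q => μ + (Q2 Q : ℝ) ^ 4 / 18)
    (measurable_bX hc' κ L) measurable_const (u := 1 - δ) (v := δ) (by linarith) hδ0.le (by ring)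
    hX hY (fun N x hx _ => decompose μ hc hδ0 hδ ht k K₀ Q2 hQ1 hQT x hx)
  refine (gC_le_of_Gc_le h).trans (le_of_eq ?_)
  simp only [hlY, Nat.cast_mul, mul_pow, hLr]
  field_simp

theorem final_max {δ t a h A σ s r P Ph D κ : ℝ} (hδ0 : 0 ≤ δ) (hδ1 : δ ≤ 1) (ha : 0 ≤ a)
    (hh : 0 ≤ h) (hσ : 0 ≤ σ) (ht : 0 ≤ t) (hP : 0 ≤ P) (hPh : 0 ≤ Ph) (hD : 0 ≤ D) (hs : 0 ≤ s)
    (hs2 : s ≤ 2 * δ) (hr1 : 1 ≤ r) (hr8 : r ≤ 8) (hκ : (1 - δ) * κ = 14 * t)
    (hslope : Ph ≤ P + h * a - σ) (ht2 : 14 * t * A ^ 2 ≤ σ) :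
    (1 - δ) * max (max (κ * a ^ 2 + r * (P + s * D)) (κ * A ^ 2 - h * a + r * (Ph + s * D))) 0
      ≤ P + 14 * t * a ^ 2 + δ * (h * a) + (r - 1) * (P + Ph) + 16 * δ * D := by
  have hsD : r * (s * D) ≤ 16 * δ * D := by
    calc r * (s * D) ≤ 8 * (2 * δ * D) :=
          mul_le_mul hr8 (mul_le_mul_of_nonneg_right hs2 hD) (mul_nonneg hs hD) (by norm_num)
      _ = 16 * δ * D := by ring
  have hr0 : 0 ≤ r := by linarith
  have n1 : 0 ≤ (r - 1) * P := mul_nonneg (by linarith) hP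
  have n2 : 0 ≤ (r - 1) * Ph := mul_nonneg (by linarith) hPh
  have n3 : 0 ≤ δ * (h * a) := by positivity
  have n4 : 0 ≤ 16 * δ * D := by positivity
  have n5 : 0 ≤ 14 * t * a ^ 2 := by positivity
  have n6 : 0 ≤ r * (P + s * D) := by positivity
  have n7 : 0 ≤ r * (Ph + s * D) := by positivity
  have e1 := mul_le_of_le_one_left n6 (by linarith : 1 - δ ≤ 1)
  have e2 := mul_le_of_le_one_left n7 (by linarith : 1 - δ ≤ 1)
  have k1 : (1 - δ) * (κ * a ^ 2 + r * (P + s * D)) ≤ 14 * t * a ^ 2 + r * P + r * (s * D) := by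
    rw [mul_add (1 - δ), ← mul_assoc, hκ]
    linarith
  have k2 : (1 - δ) * (κ * A ^ 2 - h * a + r * (Ph + s * D))
      ≤ 14 * t * A ^ 2 - h * a + δ * (h * a) + r * Ph + r * (s * D) := by
    rw [mul_add (1 - δ), mul_sub (1 - δ), ← mul_assoc, hκ]
    linarith
  rw [mul_max_of_nonneg _ _ (by linarith : 0 ≤ 1 - δ), mul_max_of_nonneg _ _
    (by linarith : 0 ≤ 1 - δ), mul_zero]
  refine max_le (max_le ?_ ?_) ?_ <;> linarith

theorem press_upper_k (μ : ℝ) {c : ℕ → ℝ} (hc : Nn c) {a h σ : ℝ} (ha : 0 ≤ a) (hh : 0 < h)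
    (hσ : 0 < σ) (hslope : press (μ + h) c ≤ press μ c + h * a - σ) {C θ A t δ D : ℝ}
    {q q₂ k K₀ : ℕ} (hC : ∑' j, c j = C) (hq1 : 1 ≤ q) (hqC : 18 * (27 * C + 2) ≤ (q : ℝ))
    (hθ : θ = μ + (q : ℝ) ^ 4 / 18) (hA : A = max 1 (θ + 1)) (ht : 0 ≤ t) (ht1 : t ≤ 1 / 28)
    (ht2 : 14 * t * A ^ 2 ≤ σ) (hδ0 : 0 < δ) (hδ2 : δ ≤ 1 / 2)
    (hK₀ : 9 * (27 * (C - ∑ j ∈ Finset.range K₀, c j)) ≤ δ) (hq21 : 1 ≤ q₂)
    (hq2C : 9 * (27 * C) ≤ δ * q₂) (hkK : K₀ + 1 < k)
    (hD : press μ (fun j => 2 * c j) + press (μ + h) (fun j => 2 * c j) = D) :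
    press μ (fun j => c j + if j = k then t else 0)
      ≤ press μ c + 14 * t * a ^ 2
        + δ * (h * a + 16 * D + Real.exp (μ + 1 / 18))
        + (((((2 : ℝ) ^ k + 2) / (2 : ℝ) ^ k) ^ 3 - 1) * (press μ c + press (μ + h) c)
          + Real.log 3 / ((2 : ℝ) ^ k) ^ 3
          + δ * ((1 - (1 - 2 * (2 : ℝ) ^ K₀ / (2 : ℝ) ^ k) ^ 3)
              * Real.exp (μ + (q₂ : ℝ) ^ 4 / 18))) := by
  subst hC
  have hA1 : 1 ≤ A := hA ▸ le_max_left _ _
  have hc2 : Nn fun j => 2 * c j := ⟨fun j => by linarith [hc.1 j], hc.2.mul_left 2⟩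
  set P := press μ c with hPdef
  set Ph := press (μ + h) c with hPh
  set C := ∑' j, c j with hC
  have hC0 : 0 ≤ C := tsum_nonneg hc.1
  have hP0 : 0 ≤ P := press_nonneg μ hc
  have hPh0 : 0 ≤ Ph := press_nonneg _ hc
  have hD0 : 0 ≤ D := hD ▸ add_nonneg (press_nonneg μ hc2) (press_nonneg _ hc2)
  set s := δ / (1 - δ) with hs
  have hs0 : 0 ≤ s := div_nonneg hδ0.le (by linarith)
  have hs2 : s ≤ 2 * δ := by
    rw [hs, div_le_iff₀ (by linarith)]; nlinarith
  have hs1 : s ≤ 1 := by linarith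
  set L := 2 ^ k with hLdef
  have hL : 1 ≤ L := Nat.one_le_two_pow
  have hLr : (L : ℝ) = (2 : ℝ) ^ k := by rw [hLdef]; push_cast; rfl
  set r := (((2 : ℝ) ^ k + 2) / (2 : ℝ) ^ k) ^ 3 with hr
  have hr1 : 1 ≤ r := one_le_pow₀ (by rw [le_div_iff₀ (by positivity)]; linarith)
  have hr8 : r ≤ 8 := by
    have h1 : ((2 : ℝ) ^ k + 2) / (2 : ℝ) ^ k ≤ 2 := by
      rw [div_le_iff₀ (by positivity)]
      have : (2 : ℝ) ≤ 2 ^ k := by
        calc (2 : ℝ) = 2 ^ 1 := (pow_one 2).symm
          _ ≤ 2 ^ k := pow_le_pow_right₀ one_le_two (by omega)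
      linarith
    calc r ≤ 2 ^ 3 := pow_le_pow_left₀ (by positivity) h1 3
      _ = 8 := by norm_num
  set c' : ℕ → ℝ := fun j => (1 - δ)⁻¹ * c j with hc'def
  have hc'eq : c' = fun j => (1 + s) * c j := by
    funext j
    rw [hc'def, hs]
    have : (1 - δ) ≠ 0 := by linarith
    field_simp
    ring
  have hc' : Nn c' :=
    ⟨fun j => mul_nonneg (inv_nonneg.2 (by linarith)) (hc.1 j), hc.2.mul_left _⟩
  have hsum' : ∑' j, c' j ≤ 2 * C := by
    rw [hc'eq, tsum_mul_left]; nlinarith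
  set κ := 14 * t / (1 - δ) with hκ
  have hκ0 : 0 ≤ κ := div_nonneg (by positivity) (by linarith)
  have hκ1 : κ ≤ 1 := by rw [hκ, div_le_iff₀ (by linarith)]; linarith
  have hray : ∀ ν, press ν c' ≤ press ν c + s * press ν (fun j => 2 * c j) := by
    intro ν
    rw [hc'eq]
    have := press_ray_le ν hc hs0 hs1
    have := mul_nonneg hs0 (press_nonneg ν hc)
    linarith
  have hg : ∀ ν, gC ν c' L ≤ r * (L : ℝ) ^ 3 * (press ν c + s * press ν (fun j => 2 * c j)) := by
    intro ν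
    refine (gC_le_press ν hc' L).trans ?_
    have e : r * (L : ℝ) ^ 3 = ((L : ℝ) + 2) ^ 3 := by
      rw [hr, hLr, div_pow, div_mul_cancel₀]; positivity
    rw [e]
    exact mul_le_mul_of_nonneg_left (hray ν) (by positivity)
  set B1 := κ * a ^ 2 + r * (P + s * D)
  set B2 := κ * A ^ 2 - h * a + r * (Ph + s * D)
  have hs' : ∀ {u v : ℝ}, u ≤ v → s * u ≤ s * v := fun hh => mul_le_mul_of_nonneg_left hh hs0
  have hb := block_bound μ hc' (h := h) (A := A) (q := q) hL hq1 hθ (by linarith) hκ0 hκ1 ha hh.le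
    hA1 (hA ▸ le_max_right _ _) (M := (L : ℝ) ^ 3 * max (max B1 B2) 0)
    (by
      refine le_trans ?_ (mul_le_mul_of_nonneg_left (le_trans (le_max_left B1 B2) (le_max_left _ 0))
        (by positivity))
      have h1 := hg μ
      have h2 := hs' (show press μ (fun j => 2 * c j) ≤ D from hD ▸ le_add_of_nonneg_right (press_nonneg _ hc2))
      have h3 := mul_le_mul_of_nonneg_left (add_le_add_left h2 P)
        (by positivity : (0:ℝ) ≤ r * (L : ℝ) ^ 3)
      simp only [B1]
      have := mul_nonneg hκ0 (sq_nonneg a)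
      linarith)
    (by
      refine le_trans ?_ (mul_le_mul_of_nonneg_left (le_trans (le_max_right B1 B2) (le_max_left _ 0))
        (by positivity))
      have h1 := hg (μ + h)
      have h2 := hs' (show press (μ + h) (fun j => 2 * c j) ≤ D from hD ▸ le_add_of_nonneg_left (press_nonneg _ hc2))
      have h3 := mul_le_mul_of_nonneg_left (add_le_add_left h2 Ph)
        (by positivity : (0:ℝ) ≤ r * (L : ℝ) ^ 3)
      simp only [B2]
      linarith)
    (mul_nonneg (by positivity) (le_max_right _ _))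
  have hk2 : 2 * 2 ^ K₀ < 2 ^ k := by
    calc 2 * 2 ^ K₀ = 2 ^ (K₀ + 1) := by ring
      _ < 2 ^ k := Nat.pow_lt_pow_right one_lt_two hkK
  refine (press_step μ hc hδ0 (by linarith) ht k K₀ q₂ hk2 hq21 hK₀ hq2C hb).trans ?_
  rw [hLr]
  have hV : (0 : ℝ) < ((2 : ℝ) ^ k) ^ 3 := by positivity
  rw [add_div, mul_div_cancel_left₀ _ hV.ne', mul_add (1 - δ)]
  have hl3 : (1 - δ) * (Real.log 3 / ((2 : ℝ) ^ k) ^ 3) ≤ Real.log 3 / ((2 : ℝ) ^ k) ^ 3 :=
    mul_le_of_le_one_left (div_nonneg (Real.log_nonneg (by norm_num)) hV.le) (by linarith)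
  have hmax : (1 - δ) * max (max B1 B2) 0
      ≤ P + 14 * t * a ^ 2 + δ * (h * a) + (r - 1) * (P + Ph) + 16 * δ * D := by
    refine final_max (δ := δ) (t := t) (a := a) (h := h) (A := A) (σ := σ) (s := s) hδ0.le
      (by linarith) ha hh.le hσ.le ht hP0 hPh0 hD0 hs0 hs2 hr1 hr8 ?_ hslope ht2
    rw [hκ]
    field_simp [(by linarith : (1 - δ) ≠ 0)]
  linarith


/-- The upper bound on the effect of a weak attraction of very long range. -/
theorem press_upper (μ : ℝ) {c : ℕ → ℝ} (hc : Nn c) {a h : ℝ} (ha : 0 ≤ a) (hh : 0 < h)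
    {σ : ℝ} (hσ : 0 < σ) (hslope : press (μ + h) c ≤ press μ c + h * a - σ) :
    ∃ t₀, 0 < t₀ ∧ ∀ t, 0 ≤ t → t ≤ t₀ → ∀ η, 0 < η → ∀ᶠ k : ℕ in atTop,
      press μ (fun j => c j + if j = k then t else 0) ≤ press μ c + 14 * t * a ^ 2 + η := by
  set C := ∑' j, c j with hC
  have hC0 : 0 ≤ C := tsum_nonneg hc.1
  obtain ⟨q, hq⟩ := exists_nat_ge (max 1 (18 * (27 * C + 2)))
  have hq1 : 1 ≤ q := by exact_mod_cast le_trans (le_max_left _ _) hq
  have hqC := le_trans (le_max_right _ _) hq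
  set θ := μ + (q : ℝ) ^ 4 / 18 with hθ
  set A := max 1 (θ + 1) with hA
  have hA1 : 1 ≤ A := le_max_left _ _
  refine ⟨min (1 / 28) (σ / (14 * A ^ 2)), lt_min (by norm_num) (by positivity),
    fun t ht htt η hη => ?_⟩
  have ht1 : t ≤ 1 / 28 := htt.trans (min_le_left _ _)
  have ht2 : 14 * t * A ^ 2 ≤ σ := by
    have := (le_div_iff₀ (by positivity)).1 (htt.trans (min_le_right _ _))
    linarith
  have hc2 : Nn fun j => 2 * c j := ⟨fun j => by linarith [hc.1 j], hc.2.mul_left 2⟩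
  set P := press μ c with hPdef
  set Ph := press (μ + h) c with hPh
  have hP0 : 0 ≤ P := press_nonneg μ hc
  have hPh0 : 0 ≤ Ph := press_nonneg _ hc
  set D := press μ (fun j => 2 * c j) + press (μ + h) (fun j => 2 * c j) with hD
  have hD0 : 0 ≤ D := add_nonneg (press_nonneg μ hc2) (press_nonneg _ hc2)
  set E1 := Real.exp (μ + 1 / 18)
  set M0 := h * a + 16 * D + E1 with hM0
  have hM : 0 ≤ M0 := by positivity
  set δ := min (1 / 2) (η / (2 * (M0 + 1))) with hδdef
  have hδ0 : 0 < δ := lt_min (by norm_num) (by positivity)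
  have hδ2 : δ ≤ 1 / 2 := min_le_left _ _
  have hδM : δ * M0 ≤ η / 2 := by
    have h1 := (le_div_iff₀ (by positivity)).1 (min_le_right (1 / 2 : ℝ) (η / (2 * (M0 + 1))))
    rw [← hδdef] at h1
    nlinarith
  obtain ⟨K₀, hK₀⟩ : ∃ K₀, 9 * (27 * (C - ∑ j ∈ Finset.range K₀, c j)) ≤ δ := by
    have h1 : Tendsto (fun K => 9 * (27 * (C - ∑ j ∈ Finset.range K, c j))) atTop
        (𝓝 (9 * (27 * (C - C)))) :=
      ((hc.2.hasSum.tendsto_sum_nat.const_sub C).const_mul 27).const_mul 9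
    simp only [sub_self, mul_zero] at h1
    exact ((h1.eventually (gt_mem_nhds hδ0)).exists).imp fun K hK => hK.le
  obtain ⟨q₂, hq₂⟩ := exists_nat_ge (max 1 (9 * (27 * C) / δ))
  have hq21 : 1 ≤ q₂ := by exact_mod_cast le_trans (le_max_left _ _) hq₂
  have hq2C : 9 * (27 * C) ≤ δ * q₂ := by
    have := (div_le_iff₀ hδ0).1 (le_trans (le_max_right _ _) hq₂)
    linarith
  set E2 := Real.exp (μ + (q₂ : ℝ) ^ 4 / 18)
  set s := δ / (1 - δ) with hs
  have hs0 : 0 ≤ s := div_nonneg hδ0.le (by linarith)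
  have hs2 : s ≤ 2 * δ := by
    rw [hs, div_le_iff₀ (by linarith)]; nlinarith
  have hs1 : s ≤ 1 := by linarith
  -- the remainder tending to zero with `k`
  have hlim : Tendsto (fun k : ℕ => ((((2 : ℝ) ^ k + 2) / (2 : ℝ) ^ k) ^ 3 - 1) * (P + Ph)
      + Real.log 3 / ((2 : ℝ) ^ k) ^ 3
      + δ * ((1 - (1 - 2 * (2 : ℝ) ^ K₀ / (2 : ℝ) ^ k) ^ 3) * E2)) atTop (𝓝 0) := by
    have hi : Tendsto (fun k : ℕ => ((2 : ℝ) ^ k)⁻¹) atTop (𝓝 0) :=
      tendsto_inv_atTop_zero.comp (tendsto_pow_atTop_atTop_of_one_lt one_lt_two)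
    have h1 := ((((hi.const_mul 2).const_add 1).pow 3).sub_const 1).mul_const (P + Ph)
    have h2 := (hi.pow 3).const_mul (Real.log 3)
    have h3 := (((((hi.const_mul (2 * (2 : ℝ) ^ K₀)).const_sub 1).pow 3).const_sub 1).mul_const
      E2).const_mul δ
    have h4 := (h1.add h2).add h3
    simp only [mul_zero, add_zero, sub_zero, one_pow, sub_self, zero_mul, ne_eq,
      OfNat.ofNat_ne_zero, not_false_eq_true, zero_pow] at h4
    refine h4.congr fun k => ?_
    have : (2 : ℝ) ^ k ≠ 0 := pow_ne_zero _ two_ne_zero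
    rw [add_div, div_self this]
    ring
  filter_upwards [hlim.eventually (gt_mem_nhds (half_pos hη)), eventually_gt_atTop (K₀ + 1)]
    with k hk hkK
  have hstep := press_upper_k μ hc ha hh hσ hslope hC.symm hq1 hqC hθ hA ht ht1 ht2 hδ0 hδ2 hK₀
    hq21 hq2C hkK hD.symm
  simp only [M0, E1, E2] at hδM hk
  linarith

end Vale.Agent.P171
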