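import Vale.Agent.P171.Trial
import Vale.Agent.P171.Upper

/-!
Choice of the coefficients by Ekeland's variational principle, and non-differentiability.
-/

open MeasureTheory Filter Topology

namespace Vale.Agent.P171

/-- Ekeland's variational principle. -/
theorem variational {X : Type*} [MetricSpace X] [CompleteSpace X] (x₀ : X) (F : X → ℝ)
    (hlsc : LowerSemicontinuous F) {m : ℝ} (hb : ∀ x, m ≤ F x) {ε : ℝ} (hε : 0 < ε) :
    ∃ x, ∀ y, F x - ε * dist x y ≤ F y := by
  let S : X → Set X := fun x => {y | F y + ε * dist x y ≤ F x}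
  have hbd : ∀ x, BddBelow (F '' S x) := fun x => ⟨m, by rintro _ ⟨y, -, rfl⟩; exact hb y⟩
  have hself : ∀ x, x ∈ S x := fun x => by simp [S]
  have hnext : ∀ (x : X) (n : ℕ), ∃ y ∈ S x, F y < sInf (F '' S x) + (1 / 2 : ℝ) ^ n := by
    intro x n
    obtain ⟨v, ⟨y, hy, rfl⟩, hlt⟩ :=
      exists_lt_of_csInf_lt (Set.nonempty_of_mem (Set.mem_image_of_mem F (hself x))) (lt_add_of_pos_right (sInf (F '' S x))
        (by positivity : (0 : ℝ) < (1 / 2) ^ n))
    exact ⟨y, hy, hlt⟩
  choose nx hnx hlt using hnext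
  let u : ℕ → X := fun n => Nat.rec x₀ (fun n x => nx x n) n
  have htrans : ∀ {x y z}, y ∈ S x → z ∈ S y → z ∈ S x := by
    intro x y z hy hz
    simp only [S, Set.mem_setOf_eq] at *
    have := mul_le_mul_of_nonneg_left (dist_triangle x y z) hε.le
    linarith
  have hmem : ∀ n k, u (n + k) ∈ S (u n) := by
    intro n k
    induction k with
    | zero => exact hself _
    | succ k ih => exact htrans ih (hnx _ _)
  have hclose : ∀ n, ∀ y ∈ S (u (n + 1)), dist (u (n + 1)) y ≤ (1 / 2 : ℝ) ^ n / ε := by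
    intro n y hy
    have h1 : sInf (F '' S (u n)) ≤ F y :=
      csInf_le (hbd _) ⟨y, htrans (hmem n 1) hy, rfl⟩
    have h2 : F (u (n + 1)) < sInf (F '' S (u n)) + (1 / 2 : ℝ) ^ n := hlt (u n) n
    have h3 : F y + ε * dist (u (n + 1)) y ≤ F (u (n + 1)) := hy
    rw [le_div_iff₀ hε]
    linarith
  have hlim0 : Tendsto (fun n => 2 * ((1 / 2 : ℝ) ^ n / ε)) atTop (𝓝 0) := by
    have := ((tendsto_pow_atTop_nhds_zero_of_lt_one (by norm_num : (0 : ℝ) ≤ 1 / 2)
      (by norm_num)).div_const ε).const_mul 2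
    simpa using this
  have hcau : CauchySeq fun n => u (n + 1) := by
    refine cauchySeq_of_le_tendsto_0 _ (fun n k N hn hk => ?_) hlim0
    obtain ⟨i, rfl⟩ := Nat.exists_eq_add_of_le hn
    obtain ⟨j, rfl⟩ := Nat.exists_eq_add_of_le hk
    have e1 := hclose N _ (hmem (N + 1) i)
    have e2 := hclose N _ (hmem (N + 1) j)
    rw [show N + i + 1 = N + 1 + i by ring, show N + j + 1 = N + 1 + j by ring]
    linarith [dist_triangle_left (u (N + 1 + i)) (u (N + 1 + j)) (u (N + 1))]
  obtain ⟨x, hx⟩ := cauchySeq_tendsto_of_complete hcau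
  have hxS : ∀ n, x ∈ S (u n) := by
    intro n
    have hclosed : IsClosed (S (u n)) := by
      have : LowerSemicontinuous fun y => F y + ε * dist (u n) y :=
        hlsc.add (continuous_const.mul (continuous_const.dist continuous_id)).lowerSemicontinuous
      exact this.isClosed_preimage (F (u n))
    refine hclosed.mem_of_tendsto hx ?_
    filter_upwards [eventually_ge_atTop n] with k hk
    obtain ⟨i, rfl⟩ := Nat.exists_eq_add_of_le hk
    rw [add_assoc]
    exact hmem n (i + 1)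
  refine ⟨x, fun y => ?_⟩
  by_contra hy
  have hyS : ∀ n, y ∈ S (u n) := fun n => htrans (hxS n) (by
    simp only [S, Set.mem_setOf_eq]; linarith)
  have ht : Tendsto (fun n => u (n + 1)) atTop (𝓝 y) := by
    refine tendsto_iff_dist_tendsto_zero.2 (squeeze_zero (fun n => dist_nonneg)
      (fun n => (hclose n y (hyS (n + 1))).trans (le_mul_of_one_le_left (by positivity) one_le_two)) hlim0)
  have := tendsto_nhds_unique hx ht
  subst this
  simp at hy

/-- Summable sequences. -/
abbrev L1 : Type := lp (fun _ : ℕ => ℝ) 1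

theorem nn_summable (c : L1) : Summable fun k => (c : ℕ → ℝ) k := by
  have h := (lp.memℓp c).summable (by simp)
  simpa [Real.norm_eq_abs, summable_abs_iff] using h

theorem tsum_abs_sub_eq_dist (c d : L1) :
    ∑' k, |(c : ℕ → ℝ) k - (d : ℕ → ℝ) k| = dist c d := by
  rw [dist_eq_norm, lp.norm_eq_tsum_rpow (by simp)]
  simp [Real.norm_eq_abs]

/-- The parameter space: chemical potentials and nonnegative summable coefficients. -/
def cone : Set (ℝ × L1) := {x | ∀ k, 0 ≤ (x.2 : ℕ → ℝ) k}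

theorem isClosed_cone : IsClosed cone := by
  have : cone = ⋂ k, (fun x : ℝ × L1 => (x.2 : ℕ → ℝ) k) ⁻¹' Set.Ici 0 := by
    ext x; simp [cone]
  rw [this]
  refine isClosed_iInter fun k => isClosed_Ici.preimage ?_
  exact ((continuous_apply k).comp lp.uniformContinuous_coe.continuous).comp continuous_snd

theorem exists_not_differentiable :
    ∃ (c : ℕ → ℝ) (μ : ℝ), Nn c ∧ ¬ DifferentiableAt ℝ (fun ν => press ν c) μ := by
  let p : ℝ := 1 / 100000
  have hp : 0 < p := by norm_num [p]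
  have hp1 : p ≤ 1 := by norm_num [p]
  have hp2 : 252 * p < 1 / 256 := by norm_num [p]
  clear_value p
  have : CompleteSpace cone := isClosed_cone.completeSpace_coe
  have hNn : ∀ x : cone, Nn fun k => (x.1.2 : ℕ → ℝ) k := fun x => ⟨x.2, nn_summable _⟩
  let α : cone → ℝ := fun x => p * (x.1.1 + (∑' k, (x.1.2 : ℕ → ℝ) (k + 2)) / 128)
  let F : cone → ℝ := fun x => press x.1.1 (fun k => (x.1.2 : ℕ → ℝ) k) - α x
  have hshift : ∀ c d : L1, |(∑' k, (c : ℕ → ℝ) (k + 2)) - ∑' k, (d : ℕ → ℝ) (k + 2)| ≤ dist c d := by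
    intro c d
    have hc := (summable_nat_add_iff 2).2 (nn_summable c)
    have hd := (summable_nat_add_iff 2).2 (nn_summable d)
    rw [← hc.tsum_sub hd, ← tsum_abs_sub_eq_dist]
    have hs : Summable fun k => |(c : ℕ → ℝ) k - (d : ℕ → ℝ) k| :=
      ((nn_summable c).sub (nn_summable d)).abs
    calc |∑' k, ((c : ℕ → ℝ) (k + 2) - (d : ℕ → ℝ) (k + 2))|
        ≤ ∑' k, |(c : ℕ → ℝ) (k + 2) - (d : ℕ → ℝ) (k + 2)| := by
          have := norm_tsum_le_tsum_norm (f := fun k => (c : ℕ → ℝ) (k + 2) - (d : ℕ → ℝ) (k + 2))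
            (by simpa [Real.norm_eq_abs] using (hc.sub hd).abs)
          simpa [Real.norm_eq_abs] using this
      _ ≤ ∑' k, |(c : ℕ → ℝ) k - (d : ℕ → ℝ) k| :=
          tsum_comp_le_tsum_of_inj hs (fun k => abs_nonneg _) (add_left_injective 2)
  have hdist : ∀ x y : cone, |x.1.1 - y.1.1| ≤ dist x y ∧ dist x.1.2 y.1.2 ≤ dist x y := by
    intro x y
    rw [Subtype.dist_eq, Prod.dist_eq, ← Real.dist_eq]
    exact ⟨le_max_left _ _, le_max_right _ _⟩
  have hα : Continuous α := by
    refine LipschitzWith.continuous (K := 2) (LipschitzWith.of_dist_le_mul fun x y => ?_)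
    obtain ⟨h1, h2⟩ := hdist x y
    have h3 := (hshift x.1.2 y.1.2).trans h2
    have h4 := abs_le.1 h1
    have h5 := abs_le.1 h3
    simp only [Real.dist_eq, α, ← mul_sub, abs_mul, abs_of_pos hp, NNReal.coe_ofNat]
    refine le_trans (mul_le_of_le_one_left (abs_nonneg _) hp1) (abs_le.2 ⟨?_, ?_⟩) <;>
      linarith [dist_nonneg (x := x) (y := y)]
  have hlsc : LowerSemicontinuous F := by
    have h1 : LowerSemicontinuous fun x : cone => press x.1.1 (fun k => (x.1.2 : ℕ → ℝ) k) := by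
      intro x y hy
      obtain ⟨δ, hδ, hδ'⟩ := press_lsc _ (hNn x) hy
      filter_upwards [Metric.ball_mem_nhds x (half_pos hδ)] with z hz
      refine hδ' _ _ (hNn z) ?_
      obtain ⟨h1, h2⟩ := hdist z x
      rw [tsum_abs_sub_eq_dist]
      linarith [Metric.mem_ball.1 hz]
    exact h1.add hα.neg.lowerSemicontinuous
  have hbelow : ∀ x, -(1003 * p) ≤ F x := by
    intro x
    have h1 := press_ge x.1.1 (hNn x)
    have h0 := press_nonneg x.1.1 (hNn x)
    have h2 := mul_le_mul_of_nonneg_left h1 hp.le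
    have h3 := mul_le_of_le_one_left h0 hp1
    simp only [F, α]
    linarith
  obtain ⟨ε, hε'⟩ : ∃ ε, ε = p / 256 := ⟨_, rfl⟩
  have hε : 0 < ε := by rw [hε']; positivity
  obtain ⟨x, hx⟩ := variational (⟨(0, 0), by simp [cone]⟩ : cone) F hlsc hbelow hε
  let c : ℕ → ℝ := fun k => (x.1.2 : ℕ → ℝ) k
  let μ : ℝ := x.1.1
  have hc : Nn c := hNn x
  refine ⟨c, μ, hc, fun hdiff => ?_⟩
  have hF : HasDerivAt (fun ν => press ν c) (deriv (fun ν => press ν c) μ) μ := hdiff.hasDerivAt
  generalize deriv (fun ν => press ν c) μ = ρ at hF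
  -- the slope is within `ε` of `p`
  have hs : ∀ s : ℝ, p * s - ε * |s| ≤ press (μ + s) c - press μ c := by
    intro s
    have h := hx ⟨(μ + s, x.1.2), x.2⟩
    have hd : dist x (⟨(μ + s, x.1.2), x.2⟩ : cone) = |s| := by
      rw [Subtype.dist_eq, Prod.dist_eq, dist_self, Real.dist_eq]
      simp [μ]
    rw [hd] at h
    simp only [F, α] at h
    change press μ c - p * (μ + _) - _ ≤ press (μ + s) c - p * (μ + s + _) at h
    linarith
  have hslope := hasDerivAt_iff_tendsto_slope_zero.1 hF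
  simp only [smul_eq_mul] at hslope
  have hR := hslope.mono_left (nhdsWithin_mono (0 : ℝ) (s := Set.Ioi 0) fun s hs => ne_of_gt hs)
  have hL := hslope.mono_left (nhdsWithin_mono (0 : ℝ) (s := Set.Iio 0) fun s hs => ne_of_lt hs)
  have hrho_lo : p - ε ≤ ρ := by
    refine ge_of_tendsto hR ?_
    filter_upwards [self_mem_nhdsWithin] with s (hs0 : 0 < s)
    rw [inv_mul_eq_div, le_div_iff₀ hs0]
    have := hs s
    rw [abs_of_pos hs0] at this
    linarith
  have hrho_hi : ρ ≤ p + ε := by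
    refine le_of_tendsto hL ?_
    filter_upwards [self_mem_nhdsWithin] with s (hs0 : s < 0)
    rw [inv_mul_eq_div, div_le_iff_of_neg hs0]
    have := hs s
    rw [abs_of_neg hs0] at this
    linarith
  obtain ⟨h, hh, hh0⟩ : ∃ h, press (μ + h) c ≤ press μ c + h * (ρ + p / 2) ∧ 0 < h := by
    obtain ⟨h, h1, h2⟩ := ((hR.eventually (gt_mem_nhds (lt_add_of_pos_right ρ (half_pos hp)))).and
      self_mem_nhdsWithin).exists
    refine ⟨h, ?_, h2⟩
    rw [inv_mul_eq_div, div_lt_iff₀ h2] at h1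
    linarith
  have hρ0 : 0 ≤ ρ + p := by linarith
  obtain ⟨t₀, ht₀, hup⟩ := press_upper μ hc (a := ρ + p) (h := h) hρ0 hh0
    (σ := h * (p / 2)) (by positivity) (by linarith)
  obtain ⟨k, hk, hk2⟩ := ((hup t₀ ht₀.le le_rfl (126 * t₀ * p ^ 2) (by positivity)).and
    (eventually_ge_atTop 2)).exists
  -- the perturbation in the direction `k`
  let d : L1 := x.1.2 + lp.single 1 k t₀
  have hdk : ∀ j, (d : ℕ → ℝ) j = c j + if j = k then t₀ else 0 := by
    intro j
    simp only [d, lp.coeFn_add, Pi.add_apply, lp.single_apply, Pi.single_apply, c]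
  have hdmem : (μ, d) ∈ cone := fun j => by
    show 0 ≤ (d : ℕ → ℝ) j
    rw [hdk]
    exact add_nonneg (hc.1 j) (by split_ifs <;> linarith)
  have hv := hx ⟨(μ, d), hdmem⟩
  have hdd : dist x (⟨(μ, d), hdmem⟩ : cone) = t₀ := by
    rw [Subtype.dist_eq, Prod.dist_eq, dist_self]
    show max 0 (dist x.1.2 d) = t₀
    rw [max_eq_right dist_nonneg, dist_eq_norm]
    simp [d, lp.norm_single, abs_of_pos ht₀]
  have hsum : ∑' j, (d : ℕ → ℝ) (j + 2) = (∑' j, c (j + 2)) + t₀ := by
    have h1 : Summable fun j => c (j + 2) := (summable_nat_add_iff 2).2 hc.2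
    have h2 : HasSum (fun j => if j = k - 2 then t₀ else 0) t₀ := hasSum_ite_eq _ _
    refine ((h1.hasSum.add h2).congr_fun fun j => ?_).tsum_eq
    rw [hdk]
    congr 1
    refine if_congr ⟨fun hj => ?_, fun hj => ?_⟩ rfl rfl <;> omega
  simp only [F, α, hdd] at hv
  change press μ c - p * (μ + (∑' j, c (j + 2)) / 128) - ε * t₀
    ≤ press μ (fun j => (d : ℕ → ℝ) j) - p * (μ + (∑' j, (d : ℕ → ℝ) (j + 2)) / 128) at hv
  rw [hsum, funext hdk, hε'] at hv
  have hb : 14 * t₀ * (ρ + p) ^ 2 ≤ 14 * t₀ * (3 * p) ^ 2 := by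
    gcongr
    linarith
  have hfin : 252 * t₀ * p ^ 2 < t₀ * (p / 256) := by
    have h2 := mul_lt_mul_of_pos_left hp2 (mul_pos ht₀ hp)
    linarith
  linarith

/-- Existence of a phase transition of type (a). -/
theorem exists_pressure_transition :
    ∃ φ : ℝ → ℝ, Measurable φ ∧ LocallyBoundedPos φ ∧ Stable φ ∧ Tempered φ ∧
      HasPressureTransition φ := by
  obtain ⟨c, μ, hc, hμ⟩ := exists_not_differentiable
  refine ⟨phiC c, measurable_phiC hc, locallyBounded_phiC hc, stable_phiC hc, tempered_phiC hc,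
    1, one_pos, fun z L hz => grandPartition_ne_top hc hz L, fun z => press (Real.log z) c,
    fun z hz => tendsto_press hc hz, Real.exp μ, Real.exp_pos μ, fun h => hμ ?_⟩
  have h' := DifferentiableAt.comp μ h Real.differentiable_exp.differentiableAt
  simpa [Function.comp_def, Real.log_exp] using h'

end Vale.Agent.P171
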