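import Vale.Agent.P171.Defs

/-!
Deterministic bounds on pair sums in terms of occupation numbers of cubes.
-/

open MeasureTheory

namespace Vale.Agent.P171

/-- Labels of integer unit cubes. -/
abbrev Cell : Type := Fin 3 → ℤ

/-- The unit cube containing a point. -/
noncomputable def cellOf (x : Space) : Cell := fun i => ⌊x i⌋

/-- The cube of side `1/q` containing a point. -/
noncomputable def fineOf (q : ℕ) (x : Space) : Cell := fun i => ⌊(q : ℝ) * x i⌋

/-- The cube of side `n` with lower corner `z`, as a finite set of unit cubes. -/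
noncomputable def cube (z : Cell) (n : ℕ) : Finset Cell :=
  Fintype.piFinset fun i => Finset.Ico (z i) (z i + n)

/-- The index of the block of side `L`. -/
def blockOf (L : ℕ) (Q : Cell) : Cell := fun i => Q i / (L : ℤ)

/-- The number of points with the same label as point `i`. -/
noncomputable def mult {ι κ : Type*} [Fintype ι] [DecidableEq κ] (g : ι → κ) (i : ι) : ℝ :=
  ∑ j, if g j = g i then 1 else 0

theorem mem_cube {z : Cell} {n : ℕ} {Q : Cell} :
    Q ∈ cube z n ↔ ∀ i, z i ≤ Q i ∧ Q i < z i + n := by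
  simp [cube, Fintype.mem_piFinset]

theorem card_cube (z : Cell) (n : ℕ) : (cube z n).card = n ^ 3 := by
  simp [cube, Fintype.card_piFinset]

theorem one_le_mult {ι κ : Type*} [Fintype ι] [DecidableEq κ] (g : ι → κ) (i : ι) :
    1 ≤ mult g i := by
  unfold mult
  refine le_trans ?_ (Finset.single_le_sum (f := fun j => if g j = g i then (1 : ℝ) else 0)
    (fun j _ => by split_ifs <;> norm_num) (Finset.mem_univ i))
  simp

theorem mult_nonneg {ι κ : Type*} [Fintype ι] [DecidableEq κ] (g : ι → κ) (i : ι) :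
    0 ≤ mult g i := zero_le_one.trans (one_le_mult g i)

/-- A symmetric nonnegative interaction between labels with row sums bounded by `T`. -/
theorem pair_sum_le {ι κ : Type*} [Fintype ι] [DecidableEq κ] (g : ι → κ) (K : κ → κ → ℝ)
    (T : κ → ℝ) (hsym : ∀ a b, K a b = K b a) (hnn : ∀ a b, 0 ≤ K a b)
    (hT : ∀ i, ∀ s : Finset κ, ∑ b ∈ s, K (g i) b ≤ T (g i)) :
    ∑ i, ∑ j, K (g i) (g j) ≤ ∑ i, mult g i * T (g i) := by
  have hpos : ∀ i, 0 < mult g i := fun i => lt_of_lt_of_le one_pos (one_le_mult g i)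
  have h1 : ∀ i j, K (g i) (g j) ≤
      (K (g i) (g j) * (mult g i / mult g j) + K (g j) (g i) * (mult g j / mult g i)) / 2 := by
    intro i j
    rw [hsym (g j) (g i), ← mul_add]
    have h2 : 2 ≤ mult g i / mult g j + mult g j / mult g i := by
      have hi := hpos i
      have hj := hpos j
      have e : mult g i / mult g j + mult g j / mult g i
          = (mult g i ^ 2 + mult g j ^ 2) / (mult g i * mult g j) := by field_simp
      rw [e, le_div_iff₀ (by positivity)]
      nlinarith [sq_nonneg (mult g i - mult g j)]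
    nlinarith [hnn (g i) (g j)]
  have hrow : ∀ i, ∑ j, K (g i) (g j) * (mult g i / mult g j) ≤ mult g i * T (g i) := by
    intro i
    have e : ∑ j, K (g i) (g j) * (mult g i / mult g j)
        = mult g i * ∑ j, K (g i) (g j) / mult g j := by
      rw [Finset.mul_sum]
      exact Finset.sum_congr rfl fun j _ => by ring
    rw [e]
    refine mul_le_mul_of_nonneg_left ?_ (mult_nonneg g i)
    refine le_trans (le_of_eq ?_) (hT i (Finset.univ.image g))
    refine (Finset.sum_image' (fun j => K (g i) (g j) / mult g j) ?_).symm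
    intro j _
    have e1 : ∀ k ∈ Finset.univ.filter (fun k => g k = g j),
        K (g i) (g k) / mult g k = K (g i) (g j) / mult g j := by
      intro k hk
      have hk' : g k = g j := (Finset.mem_filter.1 hk).2
      simp [mult, hk']
    rw [Finset.sum_congr rfl e1, Finset.sum_const, nsmul_eq_mul]
    have e2 : ((Finset.univ.filter (fun k => g k = g j)).card : ℝ) = mult g j := by
      simp [mult, Finset.sum_boole]
    rw [e2]
    have := (hpos j).ne'
    field_simp
  calc ∑ i, ∑ j, K (g i) (g j)
      ≤ ∑ i, ∑ j, (K (g i) (g j) * (mult g i / mult g j)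
          + K (g j) (g i) * (mult g j / mult g i)) / 2 :=
        Finset.sum_le_sum fun i _ => Finset.sum_le_sum fun j _ => h1 i j
    _ = ∑ i, ∑ j, K (g i) (g j) * (mult g i / mult g j) := by
        simp_rw [← Finset.sum_div, Finset.sum_add_distrib]
        rw [Finset.sum_comm (f := fun i j => K (g j) (g i) * (mult g j / mult g i))]
        ring
    _ ≤ _ := Finset.sum_le_sum fun i _ => hrow i

/-- Cauchy-Schwarz: `N^2 ≤ n^3 * sum n_Q^2` for points in a cube of side `n`. -/
theorem sq_card_le {ι : Type*} [Fintype ι] (g : ι → Cell) (z : Cell) (n : ℕ)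
    (hg : ∀ i, g i ∈ cube z n) :
    (Fintype.card ι : ℝ) ^ 2 ≤ (n : ℝ) ^ 3 * ∑ i, mult g i := by
  have h := pair_sum_le g (fun a b => if a ∈ cube z n ∧ b ∈ cube z n then (1 : ℝ) else 0)
    (fun _ => (n : ℝ) ^ 3)
    (fun a b => by simp [and_comm]) (fun a b => by split_ifs <;> norm_num)
    (fun i s => by
      simp only [hg i, true_and, Finset.sum_boole]
      rw [show ((n : ℝ) ^ 3) = (((cube z n).card : ℕ) : ℝ) by simp [card_cube]]
      exact_mod_cast Finset.card_le_card (fun x hx => (Finset.mem_filter.1 hx).2))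
  simp only [hg, and_self, if_true, Finset.sum_const, Finset.card_univ, nsmul_eq_mul,
    mul_one] at h
  rw [Finset.mul_sum]
  simpa [sq, mul_comm] using h

/-- The repulsive part. -/
noncomputable def phi0 (r : ℝ) : ℝ := if r ≤ 2 then (r⁻¹) ^ 4 else 0

theorem phi0_nonneg (r : ℝ) : 0 ≤ phi0 r := by
  unfold phi0
  split_ifs
  · positivity
  · exact le_rfl

theorem phi0_eq_zero {r : ℝ} (h : 2 < r) : phi0 r = 0 := if_neg (not_le.2 h)

theorem measurable_phi0 : Measurable phi0 :=
  Measurable.ite measurableSet_Iic (by fun_prop) measurable_const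

theorem le_phi0_of_fineOf_eq {q : ℕ} (hq : 1 ≤ q) {x y : Space} (hxy : x ≠ y)
    (h : fineOf q x = fineOf q y) : (q : ℝ) ^ 4 / 9 ≤ phi0 (dist x y) := by
  have hd : 0 < dist x y := dist_pos.2 hxy
  have hq' : (0 : ℝ) < q := by exact_mod_cast hq
  have hc : ∀ i : Fin 3, |(q : ℝ) * x i - q * y i| ≤ 1 := by
    intro i
    have e : ⌊(q : ℝ) * x i⌋ = ⌊(q : ℝ) * y i⌋ := congrFun h i
    exact (Int.abs_sub_lt_one_of_floor_eq_floor e).le
  have hsq : ((q : ℝ) * dist x y) ^ 2 ≤ 3 := by
    rw [mul_pow, EuclideanSpace.dist_eq, Real.sq_sqrt (by positivity), Finset.mul_sum]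
    calc ∑ i, (q : ℝ) ^ 2 * dist (x i) (y i) ^ 2 ≤ ∑ _i : Fin 3, (1 : ℝ) := by
          refine Finset.sum_le_sum fun i _ => ?_
          rw [Real.dist_eq, sq_abs, ← mul_pow, mul_sub]
          exact (sq_le_one_iff_abs_le_one _).2 (hc i)
      _ = 3 := by norm_num
  have hd2 : dist x y ≤ 2 := by
    have h1 : dist x y * 1 ≤ dist x y * (q : ℝ) :=
      mul_le_mul_of_nonneg_left (by exact_mod_cast hq) hd.le
    nlinarith
  rw [phi0, if_pos hd2, inv_pow, ← one_div, div_le_div_iff₀ (by norm_num) (by positivity)]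
  nlinarith [pow_nonneg (sq_nonneg ((q : ℝ) * dist x y)) 2]

theorem parent_fineOf {q : ℕ} (hq : 1 ≤ q) (x : Space) (i : Fin 3) :
    fineOf q x i / (q : ℤ) = cellOf x i := by
  have hq' : (q : ℝ) ≠ 0 := by
    have : (1 : ℝ) ≤ q := by exact_mod_cast hq
    linarith
  simp only [fineOf, cellOf]
  rw [← Int.floor_div_natCast, mul_div_cancel_left₀ _ hq']

/-- Superstability of the repulsive part, with a mesh `1/q` which may depend on the unit cube. -/
theorem superstable {ι : Type*} [Fintype ι] [DecidableEq ι] (x : ι → Space)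
    (hx : Function.Injective x) (q : Cell → ℕ) (hq : ∀ Q, 1 ≤ q Q) :
    ∑ i, ((q (cellOf (x i)) : ℝ) / 9 * mult (fun j => cellOf (x j)) i
        - (q (cellOf (x i)) : ℝ) ^ 4 / 9)
      ≤ ∑ i, ∑ j, (if i = j then 0 else phi0 (dist (x i) (x j))) := by
  let g : ι → Cell × Cell := fun i => (cellOf (x i), fineOf (q (cellOf (x i))) (x i))
  let P : Cell × Cell → Prop := fun a => ∀ i, a.2 i / (q a.1 : ℤ) = a.1 i
  have hP : ∀ i, P (g i) := fun i k => parent_fineOf (hq _) (x i) k
  let K : Cell × Cell → Cell × Cell → ℝ := fun a b =>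
    if a.1 = b.1 ∧ P a ∧ P b then (q a.1 : ℝ) / 9 else 0
  let T : Cell × Cell → ℝ := fun a => (q a.1 : ℝ) ^ 4 / 9
  have hT : ∀ i, ∀ s : Finset (Cell × Cell), ∑ b ∈ s, K (g i) b ≤ T (g i) := by
    intro i s
    have hb : ∀ b, K (g i) b
        = if (g i).1 = b.1 ∧ P b then (q (g i).1 : ℝ) / 9 else 0 := by
      intro b
      simp [K, hP i]
    simp_rw [hb]
    rw [← Finset.sum_filter, Finset.sum_const, nsmul_eq_mul]
    have hq0 : (0 : ℤ) < q (g i).1 := by exact_mod_cast hq _
    have hcard : (s.filter (fun b => (g i).1 = b.1 ∧ P b)).card ≤ q (g i).1 ^ 3 := by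
      have hi : Set.InjOn (fun b : Cell × Cell => b.2)
          ↑(s.filter (fun b => (g i).1 = b.1 ∧ P b)) := by
        intro a ha b hb' hab
        have ha' := (Finset.mem_filter.1 ha).2.1
        have hb'' := (Finset.mem_filter.1 hb').2.1
        exact Prod.ext (ha'.symm.trans hb'') hab
      rw [← card_cube (fun k => (g i).1 k * (q (g i).1 : ℤ)) (q (g i).1)]
      refine le_trans (le_of_eq (Finset.card_image_of_injOn hi).symm) (Finset.card_le_card ?_)
      intro u hu
      obtain ⟨b, hb', rfl⟩ := Finset.mem_image.1 hu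
      obtain ⟨-, hb1, hb2⟩ := Finset.mem_filter.1 hb'
      rw [mem_cube]
      intro k
      have e := hb2 k
      rw [← hb1] at e
      constructor
      · rw [← e]; exact Int.ediv_mul_le _ hq0.ne'
      · rw [← e]
        have := Int.lt_ediv_add_one_mul_self (b.2 k) hq0
        nlinarith
    have : ((s.filter (fun b => (g i).1 = b.1 ∧ P b)).card : ℝ) ≤ (q (g i).1 : ℝ) ^ 3 := by
      exact_mod_cast hcard
    calc ((s.filter (fun b => (g i).1 = b.1 ∧ P b)).card : ℝ) * ((q (g i).1 : ℝ) / 9)
        ≤ (q (g i).1 : ℝ) ^ 3 * ((q (g i).1 : ℝ) / 9) :=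
          mul_le_mul_of_nonneg_right this (by positivity)
      _ = T (g i) := by simp only [T]; ring
  have hsym : ∀ a b, K a b = K b a := by
    intro a b
    by_cases h : a.1 = b.1
    · simp [K, h, and_comm]
    · simp [K, h, Ne.symm h]
  have h := pair_sum_le g K T hsym
    (fun a b => by simp only [K]; split_ifs <;> positivity) hT
  have hl : ∑ i, ∑ j, K (g i) (g j)
      = ∑ i, (q (cellOf (x i)) : ℝ) / 9 * mult (fun j => cellOf (x j)) i := by
    refine Finset.sum_congr rfl fun i _ => ?_
    rw [mult, Finset.mul_sum]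
    refine Finset.sum_congr rfl fun j _ => ?_
    simp only [K, hP i, hP j, and_self, and_true, g]
    by_cases e : cellOf (x i) = cellOf (x j)
    · simp [e]
    · simp [e, Ne.symm e]
  have hr : ∀ i, mult g i * T (g i) ≤ (q (cellOf (x i)) : ℝ) ^ 4 / 9
      + ∑ j, (if i = j then 0 else phi0 (dist (x i) (x j))) := by
    intro i
    rw [mult, Finset.sum_mul]
    calc ∑ j, (if g j = g i then (1 : ℝ) else 0) * T (g i)
        ≤ ∑ j, ((if i = j then (q (cellOf (x i)) : ℝ) ^ 4 / 9 else 0)
            + (if i = j then 0 else phi0 (dist (x i) (x j)))) := by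
          refine Finset.sum_le_sum fun j _ => ?_
          by_cases hij : i = j
          · subst hij; simp [T, g]
          · simp only [if_neg hij, zero_add]
            by_cases he : g j = g i
            · rw [if_pos he, one_mul]
              have h1 : cellOf (x j) = cellOf (x i) := congrArg Prod.fst he
              have h2 := congrArg Prod.snd he
              simp only [g, h1] at h2
              exact le_phi0_of_fineOf_eq (hq _) (fun e => hij (hx e)) h2.symm
            · rw [if_neg he, zero_mul]; exact phi0_nonneg _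
      _ = _ := by rw [Finset.sum_add_distrib]; simp
  have h' := h.trans (Finset.sum_le_sum fun i _ => hr i)
  rw [hl, Finset.sum_add_distrib] at h'
  rw [Finset.sum_sub_distrib]
  linarith

end Vale.Agent.P171
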