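import Vale.Agent.P171.Gibbs

/-!
The potentials `φ_c = φ₀ - ∑_k c_k w_k` and their elementary bounds.
-/

open MeasureTheory

namespace Vale.Agent.P171

/-- The attractive kernel of range `2^k`. -/
noncomputable def wK (k : ℕ) (r : ℝ) : ℝ := if r ≤ 2 ^ k then (((2 : ℝ) ^ k) ^ 3)⁻¹ else 0

/-- The attraction `∑_k c_k w_k`. -/
noncomputable def fC (c : ℕ → ℝ) (r : ℝ) : ℝ := ∑' k, c k * wK k r

/-- The potential. -/
noncomputable def phiC (c : ℕ → ℝ) (r : ℝ) : ℝ := phi0 r - fC c r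

/-- The two-body term `-φ_c/2`, to be summed over ordered pairs. -/
noncomputable def bphi (c : ℕ → ℝ) (x y : Space) : ℝ := -phiC c (dist x y) / 2

/-- Nonnegative summable coefficients. -/
def Nn (c : ℕ → ℝ) : Prop := (∀ k, 0 ≤ c k) ∧ Summable c

/-- The dominating kernel on unit cubes. -/
noncomputable def wd (k : ℕ) (Q Q' : Cell) : ℝ :=
  if ∀ i, |Q i - Q' i| ≤ (2 : ℤ) ^ k then (((2 : ℝ) ^ k) ^ 3)⁻¹ else 0

theorem wK_nonneg (k : ℕ) (r : ℝ) : 0 ≤ wK k r := by
  unfold wK; split_ifs <;> positivity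

theorem inv_pow_le_one (k : ℕ) : (((2 : ℝ) ^ k) ^ 3)⁻¹ ≤ 1 :=
  inv_le_one_of_one_le₀ (one_le_pow₀ (one_le_pow₀ one_le_two))

theorem wK_le_one (k : ℕ) (r : ℝ) : wK k r ≤ 1 := by
  unfold wK; split_ifs
  · exact inv_pow_le_one k
  · exact zero_le_one

theorem wd_nonneg (k : ℕ) (Q Q' : Cell) : 0 ≤ wd k Q Q' := by
  unfold wd; split_ifs <;> positivity

theorem wd_le_one (k : ℕ) (Q Q' : Cell) : wd k Q Q' ≤ 1 := by
  unfold wd; split_ifs
  · exact inv_pow_le_one k
  · exact zero_le_one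

theorem wd_comm (k : ℕ) (Q Q' : Cell) : wd k Q Q' = wd k Q' Q := by
  unfold wd
  simp only [abs_sub_comm]

theorem abs_coord_sub_le_dist (x y : Space) (i : Fin 3) : |x i - y i| ≤ dist x y := by
  have := PiLp.norm_apply_le (x - y) i
  simpa [dist_eq_norm] using this

theorem floor_close {a b : ℝ} {R : ℤ} (h : |a - b| ≤ R) : |⌊a⌋ - ⌊b⌋| ≤ R := by
  obtain ⟨h1, h2⟩ := abs_le.1 h
  have e1 : ⌊a⌋ ≤ ⌊b⌋ + R := by
    rw [← Int.floor_add_intCast]; exact Int.floor_mono (by linarith)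
  have e2 : ⌊b⌋ ≤ ⌊a⌋ + R := by
    rw [← Int.floor_add_intCast]; exact Int.floor_mono (by linarith)
  exact abs_le.2 ⟨by linarith, by linarith⟩

theorem wK_le_wd (k : ℕ) (x y : Space) : wK k (dist x y) ≤ wd k (cellOf x) (cellOf y) := by
  by_cases h : dist x y ≤ 2 ^ k
  · rw [wK, if_pos h, wd, if_pos]
    intro i
    exact floor_close (by push_cast; exact (abs_coord_sub_le_dist x y i).trans h)
  · rw [wK, if_neg h]; exact wd_nonneg _ _ _

theorem card_near_le (Q : Cell) (R : ℕ) (s : Finset Cell) :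
    (s.filter fun Q' => ∀ i, |Q i - Q' i| ≤ (R : ℤ)).card ≤ (2 * R + 1) ^ 3 := by
  rw [← card_cube (fun i => Q i - R) (2 * R + 1)]
  refine Finset.card_le_card fun Q' hQ' => mem_cube.2 fun i => ?_
  obtain ⟨h1, h2⟩ := abs_le.1 ((Finset.mem_filter.1 hQ').2 i)
  constructor
  · omega
  · push_cast; omega

theorem sum_wd_le (k : ℕ) (Q : Cell) (s : Finset Cell) : ∑ Q' ∈ s, wd k Q Q' ≤ 27 := by
  simp only [wd]
  rw [← Finset.sum_filter, Finset.sum_const, nsmul_eq_mul, mul_inv_le_iff₀ (by positivity)]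
  have h := card_near_le Q (2 ^ k) s
  push_cast at h
  calc ((s.filter fun Q' => ∀ i, |Q i - Q' i| ≤ (2 : ℤ) ^ k).card : ℝ)
      ≤ ((2 * 2 ^ k + 1 : ℕ) : ℝ) ^ 3 := by exact_mod_cast h
    _ ≤ (3 * 2 ^ k : ℝ) ^ 3 := by
        gcongr
        push_cast
        linarith [one_le_pow₀ (one_le_two : (1 : ℝ) ≤ 2) (n := k)]
    _ = 27 * ((2 : ℝ) ^ k) ^ 3 := by ring

theorem summable_mul_of_le_one {c : ℕ → ℝ} (hc : Summable c) (u : ℕ → ℝ) (h0 : ∀ k, 0 ≤ u k)
    (h1 : ∀ k, u k ≤ 1) : Summable fun k => c k * u k := by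
  refine Summable.of_norm_bounded (g := fun k => |c k|) hc.abs fun k => ?_
  rw [Real.norm_eq_abs, abs_mul, abs_of_nonneg (h0 k)]
  exact mul_le_of_le_one_right (abs_nonneg _) (h1 k)

theorem summable_wK {c : ℕ → ℝ} (hc : Summable c) (r : ℝ) : Summable fun k => c k * wK k r :=
  summable_mul_of_le_one hc _ (fun k => wK_nonneg k r) (fun k => wK_le_one k r)

theorem summable_wd {c : ℕ → ℝ} (hc : Summable c) (Q Q' : Cell) :
    Summable fun k => c k * wd k Q Q' :=
  summable_mul_of_le_one hc _ (fun k => wd_nonneg k Q Q') (fun k => wd_le_one k Q Q')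

theorem fC_nonneg {c : ℕ → ℝ} (hc : Nn c) (r : ℝ) : 0 ≤ fC c r :=
  tsum_nonneg fun k => mul_nonneg (hc.1 k) (wK_nonneg k r)

theorem fC_le {c : ℕ → ℝ} (hc : Nn c) (r : ℝ) : fC c r ≤ ∑' k, c k :=
  (summable_wK hc.2 r).tsum_le_tsum (fun k => mul_le_of_le_one_right (hc.1 k) (wK_le_one k r)) hc.2

theorem measurable_fC {c : ℕ → ℝ} (hc : Nn c) : Measurable (fC c) := by
  refine Antitone.measurable fun r s hrs => ?_
  refine (summable_wK hc.2 s).tsum_le_tsum (fun k => mul_le_mul_of_nonneg_left ?_ (hc.1 k))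
    (summable_wK hc.2 r)
  unfold wK
  split_ifs with h1 h2
  · exact le_rfl
  · exact absurd (hrs.trans h1) h2
  · positivity
  · exact le_rfl

theorem measurable_phiC {c : ℕ → ℝ} (hc : Nn c) : Measurable (phiC c) :=
  measurable_phi0.sub (measurable_fC hc)

theorem measurable_bphi {c : ℕ → ℝ} (hc : Nn c) : Measurable (Function.uncurry (bphi c)) :=
  (((measurable_phiC hc).comp measurable_dist).neg).div_const 2

theorem bphi_comm (c : ℕ → ℝ) (x y : Space) : bphi c x y = bphi c y x := by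
  simp [bphi, dist_comm]

theorem bphi_add (c : ℕ → ℝ) (x y v : Space) : bphi c (x + v) (y + v) = bphi c x y := by
  simp [bphi]

theorem fC_add {c d : ℕ → ℝ} (hc : Summable c) (hd : Summable d) (r : ℝ) :
    fC (fun k => c k + d k) r = fC c r + fC d r := by
  simp only [fC, add_mul]
  exact (summable_wK hc r).tsum_add (summable_wK hd r)

theorem fC_smul (s : ℝ) (c : ℕ → ℝ) (r : ℝ) : fC (fun k => s * c k) r = s * fC c r := by
  simp only [fC, mul_assoc, tsum_mul_left]

theorem fC_single (k : ℕ) (t r : ℝ) : fC (fun j => if j = k then t else 0) r = t * wK k r := by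
  rw [fC, tsum_eq_single k]
  · simp
  · intro j hj; simp [hj]

/-- The attraction over all ordered pairs, bounded by occupation numbers. -/
theorem sum_fC_le {ι : Type*} [Fintype ι] {c : ℕ → ℝ} (hc : Nn c) (x : ι → Space) :
    ∑ i, ∑ j, fC c (dist (x i) (x j))
      ≤ ∑ i, mult (fun j => cellOf (x j)) i * (27 * ∑' k, c k) := by
  have h := pair_sum_le (fun i => cellOf (x i)) (fun Q Q' => ∑' k, c k * wd k Q Q')
    (fun _ => 27 * ∑' k, c k) (fun a b => by simp only [wd_comm])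
    (fun a b => tsum_nonneg fun k => mul_nonneg (hc.1 k) (wd_nonneg k a b))
    (fun i s => by
      rw [← Summable.tsum_finsetSum (fun Q' _ => summable_wd hc.2 _ Q'), ← tsum_mul_left]
      refine Summable.tsum_le_tsum (fun k => ?_) ?_ (hc.2.mul_left 27)
      · rw [← Finset.mul_sum, mul_comm (27 : ℝ)]
        exact mul_le_mul_of_nonneg_left (sum_wd_le k _ s) (hc.1 k)
      · exact summable_sum fun Q' _ => summable_wd hc.2 _ Q')
  refine le_trans (Finset.sum_le_sum fun i _ => Finset.sum_le_sum fun j _ => ?_) h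
  exact (summable_wK hc.2 _).tsum_le_tsum
    (fun k => mul_le_mul_of_nonneg_left (wK_le_wd k _ _) (hc.1 k)) (summable_wd hc.2 _ _)

theorem sum_ite_le_sum {ι : Type*} [Fintype ι] [DecidableEq ι] (F : ι → ι → ℝ)
    (hF : ∀ i, 0 ≤ F i i) :
    ∑ i, ∑ j, (if i = j then 0 else F i j) ≤ ∑ i, ∑ j, F i j :=
  Finset.sum_le_sum fun i _ => Finset.sum_le_sum fun j _ => by
    split_ifs with h
    · subst h; exact hF i
    · exact le_rfl

theorem W_bphi {ι : Type*} [Fintype ι] [DecidableEq ι] (μ : ℝ) (c : ℕ → ℝ) (x : ι → Space) :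
    W (fun _ => μ) (bphi c) x = Fintype.card ι * μ
      - (∑ i, ∑ j, (if i = j then 0 else phi0 (dist (x i) (x j)))) / 2
      + (∑ i, ∑ j, (if i = j then 0 else fC c (dist (x i) (x j)))) / 2 := by
  simp only [W, bphi, phiC, Finset.sum_const, Finset.card_univ, nsmul_eq_mul, Finset.sum_div,
    add_assoc, sub_eq_add_neg, ← Finset.sum_neg_distrib, ← Finset.sum_add_distrib]
  congr 1
  refine Finset.sum_congr rfl fun i _ => Finset.sum_congr rfl fun j _ => ?_
  split_ifs <;> ring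

/-- Superstability of `φ_c`. -/
theorem W_bphi_le {ι : Type*} [Fintype ι] [DecidableEq ι] (μ : ℝ) {c : ℕ → ℝ} (hc : Nn c)
    {q : ℕ} (hq : 1 ≤ q) (x : ι → Space) (hx : Function.Injective x) :
    W (fun _ => μ) (bphi c) x ≤ Fintype.card ι * (μ + (q : ℝ) ^ 4 / 18)
      + (27 * (∑' k, c k) / 2 - (q : ℝ) / 18) * ∑ i, mult (fun j => cellOf (x j)) i := by
  have h1 := superstable x hx (fun _ => q) (fun _ => hq)
  rw [Finset.sum_sub_distrib, ← Finset.mul_sum, Finset.sum_const, Finset.card_univ,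
    nsmul_eq_mul] at h1
  have h2 := (sum_ite_le_sum (fun i j => fC c (dist (x i) (x j)))
    (fun i => fC_nonneg hc _)).trans (sum_fC_le hc x)
  rw [← Finset.sum_mul] at h2
  rw [W_bphi]
  nlinarith

theorem sum_Ioi_eq {N : ℕ} (F : Fin N → Fin N → ℝ) (hF : ∀ i j, F i j = F j i) :
    ∑ i, ∑ j, (if i = j then 0 else F i j) = 2 * ∑ i, ∑ j ∈ Finset.Ioi i, F i j := by
  have e : ∀ i j : Fin N, (if i = j then 0 else F i j)
      = (if i < j then F i j else 0) + (if j < i then F j i else 0) := by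
    intro i j
    rcases lt_trichotomy i j with h | h | h
    · simp [h, h.ne, h.not_gt]
    · simp [h]
    · simp [h, h.ne', h.not_gt, hF i j]
  simp only [e, Finset.sum_add_distrib]
  rw [Finset.sum_comm (f := fun i j => if j < i then F j i else 0), ← two_mul]
  congr 1
  refine Finset.sum_congr rfl fun i _ => ?_
  rw [← Finset.sum_filter]
  congr 1
  ext j
  simp

theorem W_bphi_eq_energy {N : ℕ} (μ : ℝ) (c : ℕ → ℝ) (x : Fin N → Space) :
    W (fun _ => μ) (bphi c) x = N * μ - energy (phiC c) x := by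
  have h := sum_Ioi_eq (fun i j => bphi c (x i) (x j)) (fun i j => bphi_comm c _ _)
  simp only [W, energy, Finset.sum_const, Finset.card_univ, Fintype.card_fin, nsmul_eq_mul]
  rw [h, Finset.mul_sum]
  simp only [Finset.mul_sum, sub_eq_add_neg, ← Finset.sum_neg_distrib, bphi]
  congr 1
  refine Finset.sum_congr rfl fun i _ => Finset.sum_congr rfl fun j _ => ?_
  ring

theorem stable_phiC {c : ℕ → ℝ} (hc : Nn c) : Stable (phiC c) := by
  obtain ⟨q, hq⟩ := exists_nat_ge (max 1 (9 * 27 * ∑' k, c k))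
  have hq1 : 1 ≤ q := by exact_mod_cast le_trans (le_max_left _ _) hq
  refine ⟨(q : ℝ) ^ 4 / 18, fun N x hx => ?_⟩
  have h := W_bphi_le 0 hc hq1 x hx
  rw [W_bphi_eq_energy, Fintype.card_fin] at h
  have h' := le_trans (le_max_right _ _) hq
  have hm : 0 ≤ ∑ i, mult (fun j => cellOf (x j)) i := Finset.sum_nonneg fun i _ => mult_nonneg _ i
  nlinarith

theorem tempered_phiC {c : ℕ → ℝ} (hc : Nn c) : Tempered (phiC c) := by
  refine ⟨1, 1, 3, one_pos, one_pos, by norm_num, fun r hr => ?_⟩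
  have : phi0 r = 0 := phi0_eq_zero (by linarith)
  simp only [phiC, this, one_mul]
  linarith [fC_nonneg hc r, Real.rpow_nonneg (by linarith : (0 : ℝ) ≤ r) (-(3 + 1) : ℝ)]

theorem locallyBounded_phiC {c : ℕ → ℝ} (hc : Nn c) : LocallyBoundedPos (phiC c) := by
  intro a b ha
  refine ⟨(a⁻¹) ^ 4 + ∑' k, c k, fun r hr => ?_⟩
  have hr0 : 0 < r := ha.trans_le hr.1
  have h1 : phi0 r ≤ (a⁻¹) ^ 4 := by
    unfold phi0
    split_ifs
    · exact pow_le_pow_left₀ (inv_nonneg.2 hr0.le) (inv_anti₀ ha hr.1) 4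
    · positivity
  have h2 := fC_nonneg hc r
  have h3 := fC_le hc r
  have h4 : 0 ≤ (a⁻¹) ^ 4 := by positivity
  simp only [phiC]
  exact abs_le.2 ⟨by linarith [phi0_nonneg r], by linarith⟩

end Vale.Agent.P171
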