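import Vale.Agent.P171.Potential

/-!
The thermodynamic limit of the pressure of `φ_c` and its elementary properties.
-/

open MeasureTheory Filter Topology
open scoped ENNReal

namespace Vale.Agent.P171

/-- The grand partition function of `φ_c` in the half-open cube of side `n`. -/
noncomputable def Gc (μ : ℝ) (c : ℕ → ℝ) (n : ℕ) : ℝ≥0∞ :=
  G (inCells (cube 0 n)) (fun _ => μ) (bphi c)

/-- Its logarithm. -/
noncomputable def gC (μ : ℝ) (c : ℕ → ℝ) (n : ℕ) : ℝ := Real.log (Gc μ c n).toReal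

/-- The pressure. -/
noncomputable def press (μ : ℝ) (c : ℕ → ℝ) : ℝ := ⨆ n : ℕ, gC μ c n / ((n : ℝ) + 2) ^ 3

theorem Gc_bound (μ : ℝ) {c : ℕ → ℝ} (hc : Nn c) :
    ∃ θ : ℝ, ∀ n, Gc μ c n ≤ ENNReal.ofReal (Real.exp ((n : ℝ) ^ 3 * Real.exp θ)) := by
  obtain ⟨q, hq⟩ := exists_nat_ge (max 1 (9 * 27 * ∑' k, c k))
  have hq1 : 1 ≤ q := by exact_mod_cast le_trans (le_max_left _ _) hq
  refine ⟨μ + (q : ℝ) ^ 4 / 18, fun n => ?_⟩
  refine le_trans (G_mono (measurableSet_inCells _) (a' := fun _ => μ + (q : ℝ) ^ 4 / 18)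
    (b' := fun _ _ => 0) fun N x hx _ => ?_) ?_
  · rw [W_const]
    refine (W_bphi_le μ hc hq1 x hx).trans ?_
    have h' := le_trans (le_max_right _ _) hq
    have hm : 0 ≤ ∑ i, mult (fun j => cellOf (x j)) i :=
      Finset.sum_nonneg fun i _ => mult_nonneg _ i
    simp only [Fintype.card_fin]
    nlinarith
  · rw [G_cells (cube 0 n) (fun _ => μ + (q : ℝ) ^ 4 / 18)]
    simp [card_cube]

theorem Gc_ne_top (μ : ℝ) {c : ℕ → ℝ} (hc : Nn c) (n : ℕ) : Gc μ c n ≠ ∞ := by
  obtain ⟨θ, h⟩ := Gc_bound μ hc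
  exact ne_top_of_le_ne_top ENNReal.ofReal_ne_top (h n)

theorem toReal_one_le {x : ℝ≥0∞} (h1 : 1 ≤ x) (h2 : x ≠ ∞) : 1 ≤ x.toReal := by
  have := ENNReal.toReal_mono h2 h1
  simpa using this

theorem gC_le_of_Gc_le {μ : ℝ} {c : ℕ → ℝ} {n : ℕ} {r : ℝ}
    (h : Gc μ c n ≤ ENNReal.ofReal (Real.exp r)) : gC μ c n ≤ r := by
  have h1 := toReal_one_le (one_le_G _ _ _) (ne_top_of_le_ne_top ENNReal.ofReal_ne_top h)
  have h2 := ENNReal.toReal_mono ENNReal.ofReal_ne_top h
  rw [ENNReal.toReal_ofReal (Real.exp_nonneg _)] at h2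
  rw [gC, Gc, ← Real.log_exp r]
  exact Real.log_le_log (by linarith) h2

theorem Gc_eq_exp (μ : ℝ) {c : ℕ → ℝ} (hc : Nn c) (n : ℕ) :
    Gc μ c n = ENNReal.ofReal (Real.exp (gC μ c n)) := by
  have h1 := toReal_one_le (one_le_G _ _ _) (Gc_ne_top μ hc n)
  rw [gC, Gc, Real.exp_log (by linarith), ENNReal.ofReal_toReal]
  exact Gc_ne_top μ hc n

theorem gC_nonneg (μ : ℝ) {c : ℕ → ℝ} (hc : Nn c) (n : ℕ) : 0 ≤ gC μ c n :=
  Real.log_nonneg (toReal_one_le (one_le_G _ _ _) (Gc_ne_top μ hc n))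

theorem bddAbove_press (μ : ℝ) {c : ℕ → ℝ} (hc : Nn c) :
    BddAbove (Set.range fun n : ℕ => gC μ c n / ((n : ℝ) + 2) ^ 3) := by
  obtain ⟨θ, h⟩ := Gc_bound μ hc
  refine ⟨Real.exp θ, ?_⟩
  rintro _ ⟨n, rfl⟩
  simp only
  rw [div_le_iff₀ (by positivity)]
  refine (gC_le_of_Gc_le (h n)).trans ?_
  rw [mul_comm]
  gcongr
  linarith

theorem gC_le_press (μ : ℝ) {c : ℕ → ℝ} (hc : Nn c) (n : ℕ) :
    gC μ c n ≤ ((n : ℝ) + 2) ^ 3 * press μ c := by
  have := le_ciSup (bddAbove_press μ hc) n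
  rw [mul_comm, ← div_le_iff₀ (by positivity)]
  exact this

theorem press_nonneg (μ : ℝ) {c : ℕ → ℝ} (hc : Nn c) : 0 ≤ press μ c :=
  (div_nonneg (gC_nonneg μ hc 0) (by positivity)).trans (le_ciSup (bddAbove_press μ hc) 0)

/-- Two blocks separated by a corridor of width `2`. -/
theorem dist_blocks {n : ℕ} {b b' : Cell} (hb : b ≠ b') {x y : Space}
    (hx : cellOf x ∈ cube (fun i => ((n : ℤ) + 2) * b i) n)
    (hy : cellOf y ∈ cube (fun i => ((n : ℤ) + 2) * b' i) n) : 2 < dist x y := by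
  obtain ⟨i, hi⟩ := Function.ne_iff.1 hb
  have hx' := mem_cube.1 hx i
  have hy' := mem_cube.1 hy i
  simp only [cellOf] at hx' hy'
  refine lt_of_lt_of_le ?_ (abs_coord_sub_le_dist x y i)
  have l1 : ((((n : ℤ) + 2) * b i : ℤ) : ℝ) ≤ x i := Int.le_floor.1 hx'.1
  have l2 : ((((n : ℤ) + 2) * b' i : ℤ) : ℝ) ≤ y i := Int.le_floor.1 hy'.1
  have u1 : x i < ((((n : ℤ) + 2) * b i + n : ℤ) : ℝ) := Int.floor_lt.1 hx'.2
  have u2 : y i < ((((n : ℤ) + 2) * b' i + n : ℤ) : ℝ) := Int.floor_lt.1 hy'.2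
  push_cast at l1 l2 u1 u2
  have hn : (0 : ℝ) ≤ n := n.cast_nonneg
  rcases lt_or_gt_of_ne hi with h | h
  · have : (b i : ℝ) + 1 ≤ b' i := by exact_mod_cast h
    rw [abs_sub_comm]
    exact lt_of_lt_of_le (by nlinarith) (le_abs_self _)
  · have : (b' i : ℝ) + 1 ≤ b i := by exact_mod_cast h
    exact lt_of_lt_of_le (by nlinarith) (le_abs_self _)

theorem blockOf_eq {n : ℕ} {b Q : Cell} (h : Q ∈ cube (fun i => ((n : ℤ) + 2) * b i) n) :
    blockOf (n + 2) Q = b := by
  funext i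
  obtain ⟨h1, h2⟩ := mem_cube.1 h i
  simp only [blockOf]
  have hp : (0 : ℤ) < ((n + 2 : ℕ) : ℤ) := by positivity
  refine le_antisymm (Int.lt_add_one_iff.1 ((Int.ediv_lt_iff_lt_mul hp).2 ?_))
    ((Int.le_ediv_iff_mul_le hp).2 ?_)
  · push_cast; nlinarith
  · push_cast; nlinarith

theorem bphi_nonneg_of_far {c : ℕ → ℝ} (hc : Nn c) {x y : Space} (h : 2 < dist x y) :
    0 ≤ bphi c x y := by
  simp only [bphi, phiC, phi0_eq_zero h]
  linarith [fC_nonneg hc (dist x y)]

theorem card_blocks (K : ℕ) : (cube (0 : Cell) K).card = K ^ 3 := card_cube _ _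

/-- Superadditivity over blocks separated by corridors of width `2`. -/
theorem pow_gC_le (μ : ℝ) {c : ℕ → ℝ} (hc : Nn c) (n K : ℕ) :
    (K : ℝ) ^ 3 * gC μ c n ≤ gC μ c (K * (n + 2)) := by
  classical
  let B : Cell → Finset Cell := fun b => cube (fun i => ((n : ℤ) + 2) * b i) n
  let b' : Space → Space → ℝ := fun x y =>
    if blockOf (n + 2) (cellOf x) = blockOf (n + 2) (cellOf y) then bphi c x y else 0
  have hb' : Measurable (Function.uncurry b') := by
    refine Measurable.ite ?_ (measurable_bphi hc) measurable_const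
    have hg : Measurable fun x => blockOf (n + 2) (cellOf x) :=
      (measurable_of_countable (blockOf (n + 2))).comp measurable_cellOf
    exact measurableSet_eq_fun (hg.comp measurable_fst) (hg.comp measurable_snd)
  have hdis : Set.PairwiseDisjoint ↑(cube (0 : Cell) K) B := by
    intro p _ q _ hpq
    exact Finset.disjoint_left.2 fun Q hp hq => hpq ((blockOf_eq hp).symm.trans (blockOf_eq hq))
  have hsub : (cube (0 : Cell) K).biUnion B ⊆ cube 0 (K * (n + 2)) := by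
    intro Q hQ
    obtain ⟨b, hb, hQb⟩ := Finset.mem_biUnion.1 hQ
    refine mem_cube.2 fun i => ?_
    obtain ⟨h1, h2⟩ := mem_cube.1 hb i
    obtain ⟨h3, h4⟩ := mem_cube.1 hQb i
    simp only [Pi.zero_apply, zero_add] at h1 h2 ⊢
    constructor
    · nlinarith
    · push_cast; nlinarith
  have hmain : Gc μ c n ^ (K ^ 3) ≤ Gc μ c (K * (n + 2)) := by
    calc Gc μ c n ^ (K ^ 3)
        = ∏ b ∈ cube (0 : Cell) K, G (inCells (B b)) (fun _ => μ) b' := by
          rw [Finset.prod_congr rfl (g := fun _ => Gc μ c n), Finset.prod_const, card_cube]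
          intro b _
          rw [Gc, ← G_translate (fun i => ((n : ℤ) + 2) * b i) n (fun _ _ => rfl)
            (fun x y v => bphi_add c x y v)]
          refine tsum_congr fun N => ?_
          congr 1
          refine setLIntegral_congr_fun (measurableSet_conf (measurableSet_inCells _) _)
            fun x hx => ?_
          have h : ∀ i, blockOf (n + 2) (cellOf (x i)) = b := fun i =>
            blockOf_eq (Finset.mem_coe.1 (hx i trivial))
          simp [W, b', h]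
      _ = G (inCells ((cube (0 : Cell) K).biUnion B)) (fun _ => μ) b' :=
          (G_inCells_biUnion _ B hdis measurable_const hb' fun k _ l _ hkl x hx y hy => by
            simp only [b', blockOf_eq (Finset.mem_coe.1 hx), blockOf_eq (Finset.mem_coe.1 hy),
              if_neg hkl]).symm
      _ ≤ G (inCells ((cube (0 : Cell) K).biUnion B)) (fun _ => μ) (bphi c) := by
          refine G_mono (measurableSet_inCells _) fun N x _ hx => ?_
          refine add_le_add le_rfl (Finset.sum_le_sum fun i _ => Finset.sum_le_sum fun j _ => ?_)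
          by_cases hij : i = j
          · simp [hij]
          simp only [if_neg hij, b']
          split_ifs with h
          · exact le_rfl
          obtain ⟨bi, -, hbi⟩ := Finset.mem_biUnion.1 (Finset.mem_coe.1 (hx i))
          obtain ⟨bj, -, hbj⟩ := Finset.mem_biUnion.1 (Finset.mem_coe.1 (hx j))
          rw [blockOf_eq hbi, blockOf_eq hbj] at h
          exact bphi_nonneg_of_far hc (dist_blocks h hbi hbj)
      _ ≤ _ := G_mono_set (Set.preimage_mono (Finset.coe_subset.2 hsub)) _ _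
  have h1 : 0 < (Gc μ c n).toReal :=
    zero_lt_one.trans_le (toReal_one_le (one_le_G _ _ _) (Gc_ne_top μ hc n))
  have h2 := ENNReal.toReal_mono (Gc_ne_top μ hc _) hmain
  rw [ENNReal.toReal_pow] at h2
  have h3 := Real.log_le_log (pow_pos h1 _) h2
  rw [Real.log_pow] at h3
  simpa [gC] using h3

/-- To bound the pressure it suffices to bound it along multiples of a fixed side. -/
theorem press_le_of_forall_mul (μ : ℝ) {c : ℕ → ℝ} (hc : Nn c) {L : ℕ} (hL : 1 ≤ L) {B : ℝ}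
    (h : ∀ m : ℕ, gC μ c (m * L) ≤ ((m * L : ℕ) : ℝ) ^ 3 * B) : press μ c ≤ B := by
  refine ciSup_le fun n => ?_
  have h1 := (pow_gC_le μ hc n L).trans (le_of_eq_of_le (by rw [mul_comm]) (h (n + 2)))
  push_cast at h1
  have hLr : (0 : ℝ) < (L : ℝ) ^ 3 := by
    have : (1 : ℝ) ≤ L := by exact_mod_cast hL
    positivity
  rw [div_le_iff₀ (by positivity)]
  rw [mul_pow] at h1
  nlinarith

theorem bphi_fun_comb (s : ℝ) (c : ℕ → ℝ) (x y : Space) :
    bphi (fun k => (1 + s) * c k) x y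
      = (1 - s) * bphi c x y + s * bphi (fun k => 2 * c k) x y := by
  simp only [bphi, phiC, fC_smul]
  ring

/-- Convexity along rays. -/
theorem press_ray_le (μ : ℝ) {c : ℕ → ℝ} (hc : Nn c) {s : ℝ} (hs0 : 0 ≤ s) (hs1 : s ≤ 1) :
    press μ (fun k => (1 + s) * c k)
      ≤ (1 - s) * press μ c + s * press μ (fun k => 2 * c k) := by
  have h2 : Nn (fun k => 2 * c k) := ⟨fun k => by linarith [hc.1 k], hc.2.mul_left 2⟩
  refine ciSup_le fun n => ?_
  rw [div_le_iff₀ (by positivity)]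
  have h := G_holder (a := fun _ => μ) (b := bphi (fun k => (1 + s) * c k))
    (measurableSet_inCells (cube 0 n)) (a₁ := fun _ => μ)
    (a₂ := fun _ => μ) (b₁ := bphi c) (b₂ := bphi fun k => 2 * c k) measurable_const
    measurable_const (measurable_bphi hc) (measurable_bphi h2) (u := 1 - s) (v := s)
    (by linarith) hs0 (by ring) (le_of_eq (Gc_eq_exp μ hc n)) (le_of_eq (Gc_eq_exp μ h2 n))
    (fun N x _ _ => by
      have e2 : ∑ i, ∑ j, (if i = j then 0 else bphi (fun k => (1 + s) * c k) (x i) (x j))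
          = (1 - s) * ∑ i, ∑ j, (if i = j then 0 else bphi c (x i) (x j))
            + s * ∑ i, ∑ j, (if i = j then 0 else bphi (fun k => 2 * c k) (x i) (x j)) := by
        simp only [Finset.mul_sum, ← Finset.sum_add_distrib]
        refine Finset.sum_congr rfl fun i _ => Finset.sum_congr rfl fun j _ => ?_
        split_ifs
        · ring
        · exact bphi_fun_comb s c _ _
      simp only [W]
      linarith)
  refine (gC_le_of_Gc_le h).trans ?_
  have e1 := mul_le_mul_of_nonneg_left (gC_le_press μ hc n) (sub_nonneg.2 hs1)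
  have e2 := mul_le_mul_of_nonneg_left (gC_le_press μ h2 n) hs0
  linarith

theorem grandPartition_eq (c : ℕ → ℝ) {z : ℝ} (hz : 0 < z) (L : ℝ) :
    grandPartition (phiC c) 1 z L = G (box L) (fun _ => Real.log z) (bphi c) := by
  refine tsum_congr fun N => ?_
  rw [partitionN, mul_left_comm]
  congr 1
  rw [← ENNReal.ofReal_pow hz.le, integralN, ← lintegral_const_mul' _ _ ENNReal.ofReal_ne_top]
  refine lintegral_congr fun x => ?_
  rw [W_bphi_eq_energy, ← ENNReal.ofReal_mul (by positivity), sub_eq_add_neg, Real.exp_add,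
    Real.exp_nat_mul, Real.exp_log hz, neg_one_mul]

theorem box_subset (L : ℝ) : box L ⊆ inCells (cube 0 (⌊L⌋₊ + 1)) := by
  intro x hx
  refine Finset.mem_coe.2 (mem_cube.2 fun i => ?_)
  obtain ⟨h0, h1⟩ := hx i
  simp only [cellOf, Pi.zero_apply, zero_add]
  refine ⟨Int.floor_nonneg.2 h0, Int.floor_lt.2 ?_⟩
  push_cast
  linarith [Nat.lt_floor_add_one L]

theorem subset_box {L : ℝ} (hL : 0 ≤ L) {n : ℕ} (hn : (n : ℝ) ≤ L) :
    inCells (cube 0 n) ⊆ box L := by
  intro x hx i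
  obtain ⟨h0, h1⟩ := mem_cube.1 (Finset.mem_coe.1 hx) i
  simp only [cellOf, Pi.zero_apply, zero_add] at h0 h1
  refine ⟨Int.floor_nonneg.1 h0, ?_⟩
  have := Int.floor_lt.1 h1
  push_cast at this
  linarith

theorem grandPartition_ne_top {c : ℕ → ℝ} (hc : Nn c) {z : ℝ} (hz : 0 < z) (L : ℝ) :
    grandPartition (phiC c) 1 z L ≠ ∞ := by
  rw [grandPartition_eq c hz]
  exact ne_top_of_le_ne_top (Gc_ne_top (Real.log z) hc _) (G_mono_set (box_subset L) _ _)

/-- The thermodynamic limit. -/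
theorem tendsto_press {c : ℕ → ℝ} (hc : Nn c) {z : ℝ} (hz : 0 < z) :
    Tendsto (fun L : ℝ => (L ^ 3)⁻¹ * Real.log (grandPartition (phiC c) 1 z L).toReal) atTop
      (𝓝 (press (Real.log z) c)) := by
  obtain ⟨μ, rfl⟩ : ∃ μ, z = Real.exp μ := ⟨Real.log z, (Real.exp_log hz).symm⟩
  simp only [grandPartition_eq c hz, Real.log_exp]
  let F : ℝ → ℝ := fun L => (L ^ 3)⁻¹ * Real.log (G (box L) (fun _ => μ) (bphi c)).toReal
  have hub : ∀ L : ℝ, 0 < L → F L ≤ ((((⌊L⌋₊ + 1 : ℕ) : ℝ) + 2) / L) ^ 3 * press μ c := by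
    intro L hL
    have h1 := toReal_one_le (one_le_G (box L) (fun _ => μ) (bphi c))
      (ne_top_of_le_ne_top (Gc_ne_top μ hc _) (G_mono_set (box_subset L) _ _))
    have h2 := ENNReal.toReal_mono (Gc_ne_top μ hc _)
      (G_mono_set (box_subset L) (fun _ => μ) (bphi c))
    have h3 := (Real.log_le_log (by linarith) h2).trans (gC_le_press μ hc (⌊L⌋₊ + 1))
    simp only [F]
    rw [div_pow, div_mul_eq_mul_div, inv_mul_eq_div]
    exact div_le_div_of_nonneg_right h3 (by positivity)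
  have hlim1 : Tendsto (fun L : ℝ => ((((⌊L⌋₊ + 1 : ℕ) : ℝ) + 2) / L) ^ 3 * press μ c) atTop
      (𝓝 (press μ c)) := by
    have h1 : Tendsto (fun L : ℝ => (⌊L⌋₊ : ℝ) / L + 3 * L⁻¹) atTop (𝓝 (1 + 3 * 0)) :=
      tendsto_nat_floor_div_atTop.add (tendsto_inv_atTop_zero.const_mul 3)
    have h2 := ((h1.pow 3).mul_const (press μ c))
    rw [mul_zero, add_zero, one_pow, one_mul] at h2
    refine h2.congr fun L => ?_
    push_cast
    ring
  refine tendsto_order.2 ⟨fun y hy => ?_, fun y hy => ?_⟩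
  · obtain ⟨n, hn⟩ := exists_lt_of_lt_ciSup hy
    have h1 : Tendsto (fun L : ℝ => ((⌊((n : ℝ) + 2)⁻¹ * L⌋₊ : ℝ) / L) ^ 3 * gC μ c n) atTop
        (𝓝 ((((n : ℝ) + 2)⁻¹) ^ 3 * gC μ c n)) :=
      ((tendsto_nat_floor_mul_div_atTop (by positivity)).pow 3).mul_const _
    rw [inv_pow, inv_mul_eq_div] at h1
    filter_upwards [h1.eventually (lt_mem_nhds hn), eventually_gt_atTop (0 : ℝ)] with L hL hL0
    refine lt_of_lt_of_le hL ?_
    have hK : ((⌊((n : ℝ) + 2)⁻¹ * L⌋₊ * (n + 2) : ℕ) : ℝ) ≤ L := by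
      have h2 := Nat.floor_le (a := ((n : ℝ) + 2)⁻¹ * L) (by positivity)
      push_cast
      rw [← le_div_iff₀ (by positivity)]
      exact h2.trans (le_of_eq (by rw [inv_mul_eq_div]))
    have hfin : G (box L) (fun _ => μ) (bphi c) ≠ ∞ :=
      ne_top_of_le_ne_top (Gc_ne_top μ hc _) (G_mono_set (box_subset L) _ _)
    have h3 : gC μ c (⌊((n : ℝ) + 2)⁻¹ * L⌋₊ * (n + 2))
        ≤ Real.log (G (box L) (fun _ => μ) (bphi c)).toReal :=
      Real.log_le_log (zero_lt_one.trans_le (toReal_one_le (one_le_G _ _ _) (Gc_ne_top μ hc _)))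
        (ENNReal.toReal_mono hfin (G_mono_set (subset_box hL0.le hK) _ _))
    rw [div_pow, div_mul_eq_mul_div, inv_mul_eq_div (L ^ 3)]
    exact div_le_div_of_nonneg_right ((pow_gC_le μ hc n _).trans h3) (by positivity)
  · filter_upwards [hlim1.eventually (gt_mem_nhds hy), eventually_gt_atTop (0 : ℝ)] with L hL hL0
    exact (hub L hL0).trans_lt hL

theorem continuity_bound {c d : ℕ → ℝ} (hc : Nn c) (hd : Nn d) (r : ℝ) :
    fC c r ≤ fC d r + ∑' k, |d k - c k| := by
  rw [fC, fC, ← (summable_wK hd.2 r).tsum_add ((hd.2.sub hc.2).abs)]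
  refine (summable_wK hc.2 r).tsum_le_tsum (fun k => ?_)
    ((summable_wK hd.2 r).add (hd.2.sub hc.2).abs)
  have h1 : (c k - d k) * wK k r ≤ |d k - c k| * 1 := by
    refine le_trans (le_abs_self _) ?_
    rw [abs_mul, abs_sub_comm, abs_of_nonneg (wK_nonneg k r)]
    exact mul_le_mul_of_nonneg_left (wK_le_one k r) (abs_nonneg _)
  nlinarith

/-- Lower semicontinuity of the pressure in `(μ, c)`. -/
theorem press_lsc (μ : ℝ) {c : ℕ → ℝ} (hc : Nn c) {y : ℝ} (hy : y < press μ c) :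
    ∃ δ, 0 < δ ∧ ∀ (μ' : ℝ) (d : ℕ → ℝ), Nn d → |μ' - μ| + ∑' k, |d k - c k| < δ →
      y < press μ' d := by
  obtain ⟨n, hn⟩ := exists_lt_of_lt_ciSup hy
  rw [lt_div_iff₀ (by positivity)] at hn
  let T : ℝ → (ℕ → ℝ) → ℕ → ℝ≥0∞ := fun μ c M => ∑ N ∈ Finset.range M,
    (N.factorial : ℝ≥0∞)⁻¹ * integralN (inCells (cube 0 n)) (fun _ => μ) (bphi c) N
  have hlog : ENNReal.ofReal (Real.exp (y * ((n : ℝ) + 2) ^ 3)) < Gc μ c n := by
    rw [Gc_eq_exp μ hc n]
    exact (ENNReal.ofReal_lt_ofReal_iff (Real.exp_pos _)).2 (Real.exp_lt_exp.2 hn)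
  obtain ⟨M, hM⟩ : ∃ M, ENNReal.ofReal (Real.exp (y * ((n : ℝ) + 2) ^ 3)) < T μ c M := by
    rw [Gc, G, ENNReal.tsum_eq_iSup_nat] at hlog
    exact lt_iSup_iff.1 hlog
  have hT : ∀ μ' d, T μ' d M ≤ Gc μ' d n := fun μ' d => ENNReal.sum_le_tsum _
  obtain ⟨e, he0, he⟩ : ∃ e, 0 < e ∧
      ENNReal.ofReal (Real.exp (y * ((n : ℝ) + 2) ^ 3 + e)) ≤ T μ c M := by
    have hTt : T μ c M ≠ ∞ := ne_top_of_le_ne_top (Gc_ne_top μ hc n) (hT μ c)
    have h1 := (ENNReal.lt_ofReal_iff_toReal_lt ENNReal.ofReal_ne_top).1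
      (hM.trans_le (le_of_eq (ENNReal.ofReal_toReal hTt).symm))
    rw [ENNReal.toReal_ofReal (Real.exp_nonneg _)] at h1
    have h2 : 0 < (T μ c M).toReal := (Real.exp_pos _).trans h1
    refine ⟨Real.log (T μ c M).toReal - y * ((n : ℝ) + 2) ^ 3, ?_, ?_⟩
    · have := Real.log_lt_log (Real.exp_pos _) h1
      rw [Real.log_exp] at this
      linarith
    · rw [add_sub_cancel, Real.exp_log h2]
      exact ENNReal.ofReal_toReal_le
  refine ⟨e / (((M : ℝ) + 1) ^ 2), by positivity, fun μ' d hd hdist => ?_⟩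
  have hD0 : 0 ≤ ∑' k, |d k - c k| := tsum_nonneg fun k => abs_nonneg _
  rw [lt_div_iff₀ (by positivity)] at hdist
  let D := (|μ' - μ| + ∑' k, |d k - c k|) * ((M : ℝ) + 1) ^ 2
  have hTT : ENNReal.ofReal (Real.exp (-D)) * T μ c M ≤ T μ' d M := by
    simp only [T, Finset.mul_sum]
    refine Finset.sum_le_sum fun N hN => ?_
    rw [mul_left_comm]
    refine mul_le_mul_right ?_ _
    rw [integralN, integralN, ← lintegral_const_mul' _ _ ENNReal.ofReal_ne_top]
    refine lintegral_mono fun x => ?_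
    rw [← ENNReal.ofReal_mul (Real.exp_nonneg _), ← Real.exp_add]
    refine ENNReal.ofReal_le_ofReal (Real.exp_le_exp.2 ?_)
    have hN' : (N : ℝ) ≤ M := by exact_mod_cast (Finset.mem_range.1 hN).le
    have h1 : ∑ i : Fin N, ∑ j : Fin N, (if i = j then 0 else fC c (dist (x i) (x j)))
        ≤ (∑ i : Fin N, ∑ j : Fin N, (if i = j then 0 else fC d (dist (x i) (x j))))
          + (N : ℝ) * N * ∑' k, |d k - c k| := by
      calc ∑ i : Fin N, ∑ j : Fin N, (if i = j then 0 else fC c (dist (x i) (x j)))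
          ≤ ∑ i : Fin N, ∑ j : Fin N, ((if i = j then 0 else fC d (dist (x i) (x j)))
              + ∑' k, |d k - c k|) := by
            refine Finset.sum_le_sum fun i _ => Finset.sum_le_sum fun j _ => ?_
            split_ifs
            · linarith
            · exact continuity_bound hc hd _
        _ = _ := by
            simp only [Finset.sum_add_distrib, Finset.sum_const, Finset.card_univ,
              Fintype.card_fin, nsmul_eq_mul]
            ring
    rw [W_bphi, W_bphi, Fintype.card_fin]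
    have hN0 : (0 : ℝ) ≤ N := N.cast_nonneg
    have hM0 : (0 : ℝ) ≤ M := M.cast_nonneg
    have hb1 : (N : ℝ) * N ≤ ((M : ℝ) + 1) ^ 2 := by nlinarith
    have hb2 : (N : ℝ) ≤ ((M : ℝ) + 1) ^ 2 := by nlinarith
    have e1 := mul_le_mul_of_nonneg_right hb2 (abs_nonneg (μ' - μ))
    have e2 := mul_le_mul_of_nonneg_right hb1 hD0
    have e3 := mul_le_mul_of_nonneg_left (neg_abs_le (μ' - μ)) hN0
    simp only [D]
    nlinarith [mul_nonneg (mul_nonneg hN0 hN0) hD0]
  have h4 : ENNReal.ofReal (Real.exp (-D + (y * ((n : ℝ) + 2) ^ 3 + e))) ≤ Gc μ' d n := by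
    rw [Real.exp_add, ENNReal.ofReal_mul (Real.exp_nonneg _)]
    exact (mul_le_mul_right he _).trans (hTT.trans (hT μ' d))
  rw [Gc_eq_exp μ' hd n, ENNReal.ofReal_le_ofReal_iff (Real.exp_nonneg _), Real.exp_le_exp] at h4
  refine lt_of_lt_of_le ?_ (le_ciSup (bddAbove_press μ' hd) n)
  rw [lt_div_iff₀ (by positivity)]
  simp only [D] at h4
  linarith

end Vale.Agent.P171
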