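import Vale.Agent.P171.Main

/-!
The potentials constructed have absolutely integrable tails.
-/

open MeasureTheory
open scoped ENNReal

namespace Vale.Agent.P171

/-- `∫_{|x| ≥ 1} |φ(|x|)| dx < ∞` on three-space. -/
def IntegrableTail (φ : ℝ → ℝ) : Prop :=
  ∫⁻ x in {x : Space | 1 ≤ ‖x‖}, ENNReal.ofReal |φ ‖x‖| < ∞

theorem lintegral_wK_le (k : ℕ) :
    ∫⁻ x : Space, ENNReal.ofReal (wK k ‖x‖) ≤ volume (Metric.closedBall (0 : Space) 1) := by
  have h : ∀ x : Space, ENNReal.ofReal (wK k ‖x‖)
      = (Metric.closedBall (0 : Space) (2 ^ k)).indicator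
          (fun _ => ENNReal.ofReal (((2 : ℝ) ^ k) ^ 3)⁻¹) x := by
    intro x
    by_cases hx : ‖x‖ ≤ 2 ^ k
    · simp [wK, hx, mem_closedBall_zero_iff]
    · simp [wK, hx, mem_closedBall_zero_iff]
  simp only [h, lintegral_indicator_const Metric.isClosed_closedBall.measurableSet]
  rw [Measure.addHaar_closedBall' volume (0 : Space) (by positivity), finrank_euclideanSpace_fin,
    ← mul_assoc, ← ENNReal.ofReal_mul (by positivity), inv_mul_cancel₀ (by positivity),
    ENNReal.ofReal_one, one_mul]

theorem integrableTail_phiC {c : ℕ → ℝ} (hc : Nn c) : IntegrableTail (phiC c) := by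
  unfold IntegrableTail
  have hb : ∀ x ∈ {x : Space | 1 ≤ ‖x‖}, ENNReal.ofReal |phiC c ‖x‖|
      ≤ (Metric.closedBall (0 : Space) 2).indicator (fun _ => (1 : ℝ≥0∞)) x
        + ∑' k, ENNReal.ofReal (c k) * ENNReal.ofReal (wK k ‖x‖) := by
    intro x (hx : 1 ≤ ‖x‖)
    have h1 : |phiC c ‖x‖| ≤ phi0 ‖x‖ + fC c ‖x‖ := by
      have h2 := phi0_nonneg ‖x‖
      have h3 := fC_nonneg hc ‖x‖
      exact abs_le.2 ⟨by simp only [phiC]; linarith, by simp only [phiC]; linarith⟩
    refine (ENNReal.ofReal_le_ofReal h1).trans ((ENNReal.ofReal_add_le).trans (add_le_add ?_ ?_))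
    · by_cases h2 : ‖x‖ ≤ 2
      · rw [Set.indicator_of_mem (mem_closedBall_zero_iff.2 h2), ← ENNReal.ofReal_one]
        refine ENNReal.ofReal_le_ofReal ?_
        rw [phi0, if_pos h2]
        exact pow_le_one₀ (inv_nonneg.2 (norm_nonneg x)) (inv_le_one_of_one_le₀ hx)
      · simp [phi0_eq_zero (not_le.1 h2)]
    · rw [fC, ENNReal.ofReal_tsum_of_nonneg (fun k => mul_nonneg (hc.1 k) (wK_nonneg k _))
        (summable_wK hc.2 _)]
      simp [ENNReal.ofReal_mul, hc.1]
  have hm : ∀ k, Measurable fun x : Space => ENNReal.ofReal (c k) * ENNReal.ofReal (wK k ‖x‖) := by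
    intro k
    refine ((Measurable.ite measurableSet_Iic measurable_const measurable_const).comp
      measurable_norm).ennreal_ofReal.const_mul _
  refine lt_of_le_of_lt ((setLIntegral_mono' (isClosed_le continuous_const continuous_norm).measurableSet
    hb).trans (setLIntegral_le_lintegral _ _)) ?_
  rw [lintegral_add_left ((measurable_const.indicator Metric.isClosed_closedBall.measurableSet)),
    lintegral_tsum fun k => (hm k).aemeasurable,
    lintegral_indicator_const Metric.isClosed_closedBall.measurableSet, one_mul]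
  refine ENNReal.add_lt_top.2 ⟨measure_closedBall_lt_top, ?_⟩
  refine lt_of_le_of_lt (ENNReal.tsum_le_tsum fun k => ?_)
    (b := ∑' k, ENNReal.ofReal (c k) * volume (Metric.closedBall (0 : Space) 1)) ?_
  · rw [lintegral_const_mul' _ _ ENNReal.ofReal_ne_top]
    exact mul_le_mul_right (lintegral_wK_le k) _
  · rw [ENNReal.tsum_mul_right, ← ENNReal.ofReal_tsum_of_nonneg hc.1 hc.2]
    exact ENNReal.mul_lt_top ENNReal.ofReal_lt_top measure_closedBall_lt_top

/-- The main theorem, with the tail condition. -/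
theorem exists_pressure_transition_integrableTail :
    ∃ φ : ℝ → ℝ, Measurable φ ∧ LocallyBoundedPos φ ∧ Stable φ ∧ Tempered φ ∧ IntegrableTail φ ∧
      HasPressureTransition φ := by
  obtain ⟨c, μ, hc, hμ⟩ := exists_not_differentiable
  refine ⟨phiC c, measurable_phiC hc, locallyBounded_phiC hc, stable_phiC hc, tempered_phiC hc,
    integrableTail_phiC hc,
    1, one_pos, fun z L hz => grandPartition_ne_top hc hz L, fun z => press (Real.log z) c,
    fun z hz => tendsto_press hc hz, Real.exp μ, Real.exp_pos μ, fun h => hμ ?_⟩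
  have h' := DifferentiableAt.comp μ h Real.differentiable_exp.differentiableAt
  simpa [Function.comp_def, Real.log_exp] using h'

end Vale.Agent.P171
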