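import Vale.Agent.P171.Pressure

/-!
The lower bound on the pressure from a dense trial arrangement, one particle in each unit cube.
-/

open MeasureTheory Filter Topology
open scoped ENNReal

namespace Vale.Agent.P171

/-- The lower eighth of a unit cube. -/
noncomputable def halfCell (Q : Cell) : Set Space :=
  {x | ∀ i, x i ∈ Set.Ico (Q i : ℝ) (Q i + 1 / 2)}

theorem cellOf_halfCell {Q : Cell} {x : Space} (hx : x ∈ halfCell Q) : cellOf x = Q := by
  funext i
  obtain ⟨h1, h2⟩ := hx i
  exact Int.floor_eq_iff.2 ⟨h1, by linarith⟩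

theorem volume_halfCell (Q : Cell) : volume (halfCell Q) = ENNReal.ofReal (1 / 8) := by
  have e : halfCell Q = (WithLp.ofLp : Space → Fin 3 → ℝ) ⁻¹'
      (Set.univ.pi fun i => Set.Ico (Q i : ℝ) (Q i + 1 / 2)) := by
    ext x
    simp [halfCell]
  rw [e, (PiLp.volume_preserving_ofLp (Fin 3)).measure_preimage
    (MeasurableSet.univ_pi fun i => measurableSet_Ico).nullMeasurableSet, volume_pi_pi]
  simp only [Real.volume_Ico, add_sub_cancel_left, Finset.prod_const, Finset.card_univ,
    Fintype.card_fin]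
  rw [← ENNReal.ofReal_pow (by norm_num)]
  norm_num

theorem measurableSet_halfCell (Q : Cell) : MeasurableSet (halfCell Q) := by
  have e : halfCell Q = ⋂ i, (fun x : Space => x i) ⁻¹' Set.Ico (Q i : ℝ) (Q i + 1 / 2) := by
    ext x
    simp [halfCell]
  rw [e]
  exact MeasurableSet.iInter fun i => (by fun_prop : Measurable fun x : Space => x i) measurableSet_Ico

theorem half_le_dist {Q Q' : Cell} (h : Q ≠ Q') {x y : Space} (hx : x ∈ halfCell Q)
    (hy : y ∈ halfCell Q') : 1 / 2 ≤ dist x y := by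
  obtain ⟨i, hi⟩ := Function.ne_iff.1 h
  refine le_trans ?_ (abs_coord_sub_le_dist x y i)
  obtain ⟨h1, h2⟩ := hx i
  obtain ⟨h3, h4⟩ := hy i
  rcases lt_or_gt_of_ne hi with hl | hl
  · have : (Q i : ℝ) + 1 ≤ Q' i := by exact_mod_cast hl
    rw [abs_sub_comm]
    exact le_trans (by linarith) (le_abs_self _)
  · have : (Q' i : ℝ) + 1 ≤ Q i := by exact_mod_cast hl
    exact le_trans (by linarith) (le_abs_self _)

theorem dist_le_of_mem_forward {h : ℕ} {Q Q' : Cell} (hh : 1 ≤ h) (hQ' : Q' ∈ cube Q (h + 1))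
    {x y : Space} (hx : x ∈ halfCell Q) (hy : y ∈ halfCell Q') : dist x y ≤ 4 * h := by
  have hh' : (1 : ℝ) ≤ h := by exact_mod_cast hh
  rw [EuclideanSpace.dist_eq, Real.sqrt_le_iff]
  refine ⟨by positivity, ?_⟩
  calc ∑ i, dist (x i) (y i) ^ 2 ≤ ∑ _i : Fin 3, (2 * (h : ℝ)) ^ 2 := by
        refine Finset.sum_le_sum fun i _ => ?_
        obtain ⟨a1, a2⟩ := mem_cube.1 hQ' i
        obtain ⟨h1, h2⟩ := hx i
        obtain ⟨h3, h4⟩ := hy i
        have b1 : (Q i : ℝ) ≤ Q' i := by exact_mod_cast a1
        have b2 : (Q' i : ℝ) + 1 ≤ Q i + (h + 1 : ℝ) := by exact_mod_cast a2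
        refine pow_le_pow_left₀ dist_nonneg ?_ 2
        rw [Real.dist_eq, abs_le]
        constructor <;> linarith
    _ ≤ (4 * (h : ℝ)) ^ 2 := by simp; nlinarith

theorem gC_lower (μ : ℝ) {c : ℕ → ℝ} (hc : Nn c) (n K : ℕ) :
    ((n : ℝ) ^ 3) * (μ - 1003)
      + (∑ k ∈ Finset.range K, c (k + 2) * (((n - 2 ^ k : ℕ) : ℝ) ^ 3 / 128)) ≤ gC μ c n := by
  classical
  let S : Finset Cell := cube 0 n
  let piece : (Fin S.card ≃ S) → Set (Fin S.card → Space) := fun e =>
    Set.univ.pi fun i => halfCell (e i)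
  let v : ℝ := (n : ℝ) ^ 3 * (μ - 1000)
    + (∑ k ∈ Finset.range K, c (k + 2) * (((n - 2 ^ k : ℕ) : ℝ) ^ 3 / 128))
  have hW : ∀ e, ∀ x ∈ piece e, v ≤ W (fun _ => μ) (bphi c) x := by
    intro e x hx
    have hcell : ∀ i, x i ∈ halfCell (e i) := fun i => hx i trivial
    have hne : ∀ i j, i ≠ j → (e i : Cell) ≠ e j := fun i j hij h =>
      hij (e.injective (Subtype.ext h))
    have hphi : ∀ i, ∑ j, (if i = j then 0 else phi0 (dist (x i) (x j))) ≤ 2000 := by
      intro i
      calc ∑ j, (if i = j then 0 else phi0 (dist (x i) (x j)))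
          ≤ ∑ j, (if ∀ k, |(e i : Cell) k - (e j : Cell) k| ≤ (2 : ℤ) then (16 : ℝ) else 0) := by
            refine Finset.sum_le_sum fun j _ => ?_
            by_cases hij : i = j
            · simp [hij]
            rw [if_neg hij]
            by_cases hd : dist (x i) (x j) ≤ 2
            · rw [if_pos, phi0, if_pos hd]
              · have h1 := half_le_dist (hne i j hij) (hcell i) (hcell j)
                calc ((dist (x i) (x j))⁻¹) ^ 4 ≤ ((1 / 2 : ℝ)⁻¹) ^ 4 :=
                      pow_le_pow_left₀ (inv_nonneg.2 dist_nonneg) (inv_anti₀ (by norm_num) h1) 4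
                  _ = 16 := by norm_num
              · intro k
                rw [← cellOf_halfCell (hcell i), ← cellOf_halfCell (hcell j)]
                exact floor_close (by push_cast; exact (abs_coord_sub_le_dist _ _ k).trans hd)
            · rw [phi0, if_neg hd]
              split_ifs <;> norm_num
        _ = ∑ Q ∈ S, (if ∀ k, |(e i : Cell) k - Q k| ≤ (2 : ℤ) then (16 : ℝ) else 0) := by
            rw [← Finset.sum_coe_sort S, ← e.sum_comp]
        _ ≤ 2000 := by
            rw [← Finset.sum_filter, Finset.sum_const, nsmul_eq_mul]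
            have h1 := card_near_le (e i : Cell) 2 S
            push_cast at h1
            have h2 : ((S.filter fun Q => ∀ k, |(e i : Cell) k - Q k| ≤ (2 : ℤ)).card : ℝ) ≤ 125 := by
              exact_mod_cast h1.trans (by norm_num)
            linarith
    have hf : ∀ k ∈ Finset.range K, (((n - 2 ^ k : ℕ) : ℝ) ^ 3 / 64)
        ≤ ∑ i, ∑ j, (if i = j then 0 else wK (k + 2) (dist (x i) (x j))) := by
      intro k _
      have hR : (((2 : ℝ) ^ (k + 2)) ^ 3)⁻¹ * ((2 : ℝ) ^ k) ^ 3 = 1 / 64 := by
        rw [pow_add]; field_simp; ring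
      calc (((n - 2 ^ k : ℕ) : ℝ) ^ 3 / 64)
          = ∑ _Q ∈ cube (0 : Cell) (n - 2 ^ k),
              (((2 : ℝ) ^ (k + 2)) ^ 3)⁻¹ * ((2 : ℝ) ^ k) ^ 3 := by
            rw [Finset.sum_const, card_cube, nsmul_eq_mul, hR]
            push_cast
            ring
        _ ≤ ∑ Q ∈ S, (if Q ∈ cube (0 : Cell) (n - 2 ^ k) then
              (((2 : ℝ) ^ (k + 2)) ^ 3)⁻¹ * ((2 : ℝ) ^ k) ^ 3 else 0) := by
            rw [← Finset.sum_filter]
            refine Finset.sum_le_sum_of_subset_of_nonneg ?_ (fun _ _ _ => by positivity)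
            intro Q hQ
            refine Finset.mem_filter.2 ⟨mem_cube.2 fun l => ?_, hQ⟩
            obtain ⟨a1, a2⟩ := mem_cube.1 hQ l
            refine ⟨a1, ?_⟩
            have : ((n - 2 ^ k : ℕ) : ℤ) ≤ (n : ℤ) := by exact_mod_cast Nat.sub_le _ _
            linarith
        _ = ∑ i, (if (e i : Cell) ∈ cube (0 : Cell) (n - 2 ^ k) then
              (((2 : ℝ) ^ (k + 2)) ^ 3)⁻¹ * ((2 : ℝ) ^ k) ^ 3 else 0) := by
            rw [← Finset.sum_coe_sort S, ← e.sum_comp]
        _ ≤ _ := by
            refine Finset.sum_le_sum fun i _ => ?_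
            split_ifs with hi
            · let F : Finset Cell := (cube (e i : Cell) (2 ^ k + 1)).erase (e i)
              have hsub : F ⊆ S := fun Q hQ => mem_cube.2 fun l => by
                obtain ⟨a1, a2⟩ := mem_cube.1 (Finset.mem_of_mem_erase hQ) l
                obtain ⟨b1, b2⟩ := mem_cube.1 hi l
                simp only [Pi.zero_apply, zero_add] at b1 b2 ⊢
                generalize (2 : ℕ) ^ k = m at a2 b2
                constructor <;> omega
              have hF : (2 ^ k : ℝ) ^ 3 ≤ (F.card : ℝ) := by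
                have hmem : (e i : Cell) ∈ cube (e i : Cell) (2 ^ k + 1) :=
                  mem_cube.2 fun l => ⟨le_rfl, by push_cast; nlinarith [pow_pos (two_pos : (0:ℤ) < 2) k]⟩
                have h1 : (2 ^ k) ^ 3 ≤ F.card := by
                  rw [Finset.card_erase_of_mem hmem, card_cube]
                  have : 1 ≤ 2 ^ k := Nat.one_le_two_pow
                  have e1 : (2 ^ k + 1) ^ 3 = (2 ^ k) ^ 3 + 3 * (2 ^ k) ^ 2 + 3 * 2 ^ k + 1 := by ring
                  omega
                exact_mod_cast h1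
              calc (((2 : ℝ) ^ (k + 2)) ^ 3)⁻¹ * ((2 : ℝ) ^ k) ^ 3
                  ≤ (((2 : ℝ) ^ (k + 2)) ^ 3)⁻¹ * F.card := by gcongr
                _ = ∑ Q ∈ S, (if Q ∈ F then (((2 : ℝ) ^ (k + 2)) ^ 3)⁻¹ else 0) := by
                    rw [Finset.sum_ite_mem, Finset.inter_eq_right.2 hsub, Finset.sum_const,
                      nsmul_eq_mul, mul_comm]
                _ = ∑ j, (if (e j : Cell) ∈ F then (((2 : ℝ) ^ (k + 2)) ^ 3)⁻¹ else 0) := by
                    rw [← Finset.sum_coe_sort S, ← e.sum_comp]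
                _ ≤ _ := by
                    refine Finset.sum_le_sum fun j _ => ?_
                    split_ifs with hj hij hij
                    · subst hij; exact absurd rfl (Finset.ne_of_mem_erase hj)
                    · have := dist_le_of_mem_forward (h := 2 ^ k) Nat.one_le_two_pow
                        (Finset.mem_of_mem_erase hj) (hcell i) (hcell j)
                      rw [wK, if_pos]
                      refine this.trans (le_of_eq ?_)
                      push_cast
                      ring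
                    · exact le_rfl
                    · exact wK_nonneg _ _
            · exact Finset.sum_nonneg fun j _ => by split_ifs <;> simp [wK_nonneg]
    have hswap : ∑ k ∈ Finset.range K, c (k + 2) * (((n - 2 ^ k : ℕ) : ℝ) ^ 3 / 64)
        ≤ ∑ i, ∑ j, (if i = j then 0 else fC c (dist (x i) (x j))) := by
      refine le_trans (Finset.sum_le_sum fun k hk => mul_le_mul_of_nonneg_left (hf k hk) (hc.1 _)) ?_
      simp only [Finset.mul_sum]
      rw [Finset.sum_comm]
      refine Finset.sum_le_sum fun i _ => ?_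
      rw [Finset.sum_comm]
      refine Finset.sum_le_sum fun j _ => ?_
      split_ifs
      · simp
      · refine le_trans (le_of_eq (Finset.sum_map (Finset.range K) (addRightEmbedding 2)
          (fun l => c l * wK l (dist (x i) (x j)))).symm) ?_
        exact (summable_wK hc.2 _).sum_le_tsum _ (fun l _ => mul_nonneg (hc.1 l) (wK_nonneg l _))
    have hphi' := Finset.sum_le_sum fun i (_ : i ∈ Finset.univ) => hphi i
    rw [Finset.sum_const, Finset.card_univ, nsmul_eq_mul] at hphi'
    rw [W_bphi]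
    have hcard : (Fintype.card (Fin S.card) : ℝ) = (n : ℝ) ^ 3 := by simp [S, card_cube]
    rw [hcard] at hphi' ⊢
    have e64 : ∑ k ∈ Finset.range K, c (k + 2) * (((n - 2 ^ k : ℕ) : ℝ) ^ 3 / 128)
        = (∑ k ∈ Finset.range K, c (k + 2) * (((n - 2 ^ k : ℕ) : ℝ) ^ 3 / 64)) / 2 := by
      rw [Finset.sum_div]; exact Finset.sum_congr rfl fun k _ => by ring
    simp only [v]
    linarith
  have hdis : Set.PairwiseDisjoint ↑(Finset.univ : Finset (Fin S.card ≃ S)) piece := by
    intro e _ e' _ hne
    refine Set.disjoint_left.2 fun x hx hx' => hne (Equiv.ext fun i => Subtype.ext ?_)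
    rw [← cellOf_halfCell (hx i trivial), ← cellOf_halfCell (hx' i trivial)]
  have hmeas : ∀ e, MeasurableSet (piece e) := fun e =>
    MeasurableSet.pi Set.countable_univ fun i _ => measurableSet_halfCell _
  have hsub : (⋃ e ∈ (Finset.univ : Finset (Fin S.card ≃ S)), piece e)
      ⊆ conf (inCells (cube 0 n)) (Fin S.card) := by
    refine Set.iUnion₂_subset fun e _ x hx i _ => ?_
    show cellOf (x i) ∈ (↑S : Set Cell)
    rw [cellOf_halfCell (hx i trivial)]
    exact Finset.mem_coe.2 (e i).2
  have hle : ENNReal.ofReal (Real.exp v) * ENNReal.ofReal (1 / 8) ^ S.card ≤ Gc μ c n := by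
    refine le_trans ?_ (ENNReal.le_tsum S.card)
    have h1 : (S.card.factorial : ℝ≥0∞)
        * (ENNReal.ofReal (Real.exp v) * ENNReal.ofReal (1 / 8) ^ S.card)
        ≤ integralN (inCells (cube 0 n)) (fun _ => μ) (bphi c) S.card := by
      refine le_trans ?_ (lintegral_mono_set hsub)
      rw [lintegral_biUnion_finset hdis fun e _ => hmeas e]
      have h2 : ∀ e ∈ (Finset.univ : Finset (Fin S.card ≃ S)),
          ENNReal.ofReal (Real.exp v) * ENNReal.ofReal (1 / 8) ^ S.card
            ≤ ∫⁻ x in piece e, ENNReal.ofReal (Real.exp (W (fun _ => μ) (bphi c) x)) := by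
        intro e _
        refine le_trans ?_ (setLIntegral_mono' (hmeas e) fun x hx =>
          ENNReal.ofReal_le_ofReal (Real.exp_le_exp.2 (hW e x hx)))
        simp [piece, volume_pi_pi, volume_halfCell]
      refine le_trans (le_of_eq ?_) (Finset.card_nsmul_le_sum _ _ _ h2)
      rw [Finset.card_univ, Fintype.card_equiv (Fintype.equivFinOfCardEq (by simp)).symm,
        Fintype.card_fin, nsmul_eq_mul]
    refine le_trans (le_of_eq ?_) (mul_le_mul_right h1 _)
    rw [← mul_assoc, ENNReal.inv_mul_cancel (by exact_mod_cast S.card.factorial_ne_zero)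
      (ENNReal.natCast_ne_top _), one_mul]
  have h8 : Real.exp (-3) ≤ 1 / 8 := by
    have h2 : (2 : ℝ) ≤ Real.exp 1 := by
      have := Real.add_one_le_exp (1 : ℝ); linarith
    rw [Real.exp_neg, one_div]
    refine inv_anti₀ (by norm_num) ?_
    calc (8 : ℝ) = 2 ^ 3 := by norm_num
      _ ≤ Real.exp 1 ^ 3 := by gcongr
      _ = Real.exp 3 := by rw [← Real.exp_nat_mul]; norm_num
  have h9 : ENNReal.ofReal (Real.exp (v + S.card * (-3)))
      ≤ ENNReal.ofReal (Real.exp v) * ENNReal.ofReal (1 / 8) ^ S.card := by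
    rw [Real.exp_add, ENNReal.ofReal_mul (Real.exp_nonneg _), Real.exp_nat_mul,
      ENNReal.ofReal_pow (Real.exp_nonneg _)]
    gcongr
  have h10 := h9.trans hle
  rw [Gc_eq_exp μ hc n, ENNReal.ofReal_le_ofReal_iff (Real.exp_nonneg _), Real.exp_le_exp] at h10
  have hc3 : (S.card : ℝ) = (n : ℝ) ^ 3 := by simp [S, card_cube]
  rw [hc3] at h10
  simp only [v] at h10
  linarith

/-- The dense trial bound on the pressure. -/
theorem press_ge (μ : ℝ) {c : ℕ → ℝ} (hc : Nn c) :
    μ - 1003 + (∑' k, c (k + 2)) / 128 ≤ press μ c := by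
  have hs : Summable fun k => c (k + 2) := (summable_nat_add_iff 2).2 hc.2
  have hfin : ∀ K : ℕ, μ - 1003 + (∑ k ∈ Finset.range K, c (k + 2)) / 128 ≤ press μ c := by
    intro K
    have hr : Tendsto (fun n : ℕ => (n : ℝ) / ((n : ℝ) + 2)) atTop (𝓝 1) :=
      tendsto_natCast_div_add_atTop 2
    have hrk : ∀ k : ℕ, Tendsto (fun n : ℕ => ((n - 2 ^ k : ℕ) : ℝ) / ((n : ℝ) + 2)) atTop (𝓝 1) := by
      intro k
      have h0 : Tendsto (fun n : ℕ => (2 : ℝ) ^ k / ((n : ℝ) + 2)) atTop (𝓝 0) :=
        Tendsto.div_atTop tendsto_const_nhds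
          (tendsto_atTop_add_const_right _ _ tendsto_natCast_atTop_atTop)
      have h1 := hr.sub h0
      rw [sub_zero] at h1
      refine h1.congr' ?_
      filter_upwards [eventually_ge_atTop (2 ^ k)] with n hn
      push_cast [hn]
      ring
    have hlim : Tendsto (fun n : ℕ => ((n : ℝ) / ((n : ℝ) + 2)) ^ 3 * (μ - 1003)
        + ∑ k ∈ Finset.range K, c (k + 2) * ((((n - 2 ^ k : ℕ) : ℝ) / ((n : ℝ) + 2)) ^ 3 / 128))
        atTop (𝓝 ((1 : ℝ) ^ 3 * (μ - 1003)
          + ∑ k ∈ Finset.range K, c (k + 2) * ((1 : ℝ) ^ 3 / 128))) :=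
      ((hr.pow 3).mul_const _).add
        (tendsto_finsetSum _ fun k _ => (((hrk k).pow 3).div_const _).const_mul _)
    have := le_of_tendsto hlim (Eventually.of_forall fun n => by
      refine le_trans (le_of_eq ?_) (le_trans (div_le_div_of_nonneg_right (gC_lower μ hc n K)
        (by positivity : (0 : ℝ) ≤ ((n : ℝ) + 2) ^ 3)) (le_ciSup (bddAbove_press μ hc) n))
      rw [add_div, Finset.sum_div, div_pow]
      congr 1
      · ring
      · refine Finset.sum_congr rfl fun k _ => ?_
        rw [div_pow]; ring)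
    simp only [one_pow, one_mul, mul_div_assoc', mul_one] at this
    rw [Finset.sum_div]
    exact this
  have hlim : Tendsto (fun K => μ - 1003 + (∑ k ∈ Finset.range K, c (k + 2)) / 128) atTop
      (𝓝 (μ - 1003 + (∑' k, c (k + 2)) / 128)) :=
    ((hs.hasSum.tendsto_sum_nat).div_const _).const_add _
  exact le_of_tendsto hlim (Eventually.of_forall hfin)

end Vale.Agent.P171
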